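import Vale.Agent.P355.H349.Funcs

/-! From four mutually unbiased bases to one configuration `{6,6,1,1}` violating an inequality. -/

namespace Vale.Agent.P355.H349

open Finset Matrix Vale.Agent.P355

section ip
variable {n : ℕ} {B : Fin n → M6}

theorem star_ip' (B : Fin n → M6) (u v : Fin n × Fin 6) : star (ip B u v) = ip B v u := by
  unfold ip
  rw [star_sum]
  exact Finset.sum_congr rfl fun r _ => by rw [star_mul', star_star]; ring

theorem ip_mul (hB : IsMUBs B) {u v : Fin n × Fin 6} (h : u.1 ≠ v.1) :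
    ip B u v * ip B v u = 1 / 6 := by
  have := ip_diff hB h u.2 v.2
  rw [star_ip'] at this
  rw [mul_comm]
  exact this

theorem ip_complete (hB : IsMUBs B) (i : Fin n) (u v : Fin n × Fin 6) :
    ∑ a, ip B u (i, a) * ip B (i, a) v = ip B u v := by
  unfold ip
  calc _ = ∑ a, ∑ r, ∑ s, star (vec B u r) * vec B v s *
          (vec B (i, a) r * star (vec B (i, a) s)) := by
        refine Finset.sum_congr rfl fun a _ => ?_
        rw [Finset.sum_mul_sum]
        exact Finset.sum_congr rfl fun r _ => Finset.sum_congr rfl fun s _ => by ring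
    _ = ∑ r, ∑ s, star (vec B u r) * vec B v s *
          ∑ a, (vec B (i, a) r * star (vec B (i, a) s)) := by
        rw [Finset.sum_comm]
        refine Finset.sum_congr rfl fun r _ => ?_
        rw [Finset.sum_comm]
        refine Finset.sum_congr rfl fun s _ => ?_
        rw [Finset.mul_sum]
    _ = _ := by
        have h : ∀ r s, ∑ a, (vec B (i, a) r * star (vec B (i, a) s)) = dl r s := fun r s =>
          unitary_rows (hB.1 i) r s
        simp only [h]
        refine Finset.sum_congr rfl fun r _ => ?_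
        exact sum_dl' (fun s => star (vec B u r) * vec B v s) r

end ip

/-- `√6` as a complex number. -/
noncomputable def s6 : ℂ := ((Real.sqrt 6 : ℝ) : ℂ)

theorem s6_sq : s6 * s6 = 6 := by
  unfold s6
  rw [← Complex.ofReal_mul, Real.mul_self_sqrt (by norm_num)]
  norm_num

theorem star_s6 : star s6 = s6 := Complex.conj_ofReal _

theorem s6_ne : s6 ≠ 0 := fun h => by
  have := s6_sq
  rw [h] at this
  norm_num at this

/-- the flat unitary of the bases `0, 1` and the `k`-th vector of the basis `2`. -/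
def V4 (B : Fin 4 → M6) (k : Fin 6) : M6 :=
  Matrix.of fun a c => 6 * ip B (2, k) (0, a) * ip B (0, a) (1, c) * ip B (1, c) (2, k)

/-- the `l`-th vector of the basis `3` in the coordinates of the basis `0`, in the gauge given by
the `k`-th vector of the basis `2`. -/
noncomputable def be4 (B : Fin 4 → M6) (k l : Fin 6) (a : Fin 6) : ℂ :=
  6 * s6 * ip B (2, k) (0, a) * ip B (0, a) (3, l) * ip B (3, l) (2, k)

/-- the same vector in the coordinates of the basis `1`. -/
noncomputable def ga4 (B : Fin 4 → M6) (k l : Fin 6) (c : Fin 6) : ℂ :=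
  6 * s6 * ip B (2, k) (1, c) * ip B (1, c) (3, l) * ip B (3, l) (2, k)

/-- coordinates in the second basis. -/
def gam (V : M6) (be : Fin 6 → ℂ) (c : Fin 6) : ℂ := ∑ a, star (V a c) * be a

/-- a configuration of type `{6,6,1,1}`. -/
structure Q611 (V : M6) (be : Fin 6 → ℂ) : Prop where
  flat : Flat6 V
  bflat : ∀ a, star (be a) * be a = 1
  gflat : ∀ c, star (gam V be c) * gam V be c = 1
  bsum : ∑ a, be a = s6

variable {B : Fin 4 → M6}

theorem V4_apply (k a c : Fin 6) :
    V4 B k a c = 6 * ip B (2, k) (0, a) * ip B (0, a) (1, c) * ip B (1, c) (2, k) := rfl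

theorem star_V4 (k a c : Fin 6) :
    star (V4 B k a c) = 6 * ip B (0, a) (2, k) * ip B (1, c) (0, a) * ip B (2, k) (1, c) := by
  rw [V4_apply, star_mul', star_mul', star_mul', star_ip', star_ip', star_ip']
  simp

theorem star_be4 (k l a : Fin 6) : star (be4 B k l a)
    = 6 * s6 * ip B (0, a) (2, k) * ip B (3, l) (0, a) * ip B (2, k) (3, l) := by
  unfold be4
  rw [star_mul', star_mul', star_mul', star_mul', star_ip', star_ip', star_ip', star_s6]
  simp

theorem star_ga4 (k l c : Fin 6) : star (ga4 B k l c)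
    = 6 * s6 * ip B (1, c) (2, k) * ip B (3, l) (1, c) * ip B (2, k) (3, l) := by
  unfold ga4
  rw [star_mul', star_mul', star_mul', star_mul', star_ip', star_ip', star_ip', star_s6]
  simp

theorem gam4 (hB : IsMUBs B) (k l c : Fin 6) : gam (V4 B k) (be4 B k l) c = ga4 B k l c := by
  unfold gam ga4
  have h1 : ∀ a, star (V4 B k a c) * be4 B k l a
      = (6 * s6 * ip B (2, k) (1, c) * ip B (3, l) (2, k)) *
        (ip B (1, c) (0, a) * ip B (0, a) (3, l)) := by
    intro a
    rw [star_V4]
    unfold be4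
    have e := ip_mul hB (u := (0, a)) (v := (2, k)) (by show (0 : Fin 4) ≠ 2; decide)
    linear_combination (36 * s6 * ip B (2, k) (1, c) * ip B (3, l) (2, k) *
        (ip B (1, c) (0, a) * ip B (0, a) (3, l))) * e
  simp only [h1, ← Finset.mul_sum, ip_complete hB]
  ring

theorem flat_V4 (hB : IsMUBs B) (k : Fin 6) : Flat6 (V4 B k) := by
  have h02 : ∀ a, ip B (0, a) (2, k) * ip B (2, k) (0, a) = 1 / 6 := fun a =>
    ip_mul hB (by show (0 : Fin 4) ≠ 2; decide)
  have h12 : ∀ c, ip B (1, c) (2, k) * ip B (2, k) (1, c) = 1 / 6 := fun c =>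
    ip_mul hB (by show (1 : Fin 4) ≠ 2; decide)
  have h01 : ∀ a c, ip B (0, a) (1, c) * ip B (1, c) (0, a) = 1 / 6 := fun a c =>
    ip_mul hB (by show (0 : Fin 4) ≠ 1; decide)
  refine ⟨?_, ?_, ?_, ?_⟩
  · intro a a'
    have h1 : ∀ c, V4 B k a c * star (V4 B k a' c)
        = (6 * ip B (2, k) (0, a) * ip B (0, a') (2, k)) *
          (ip B (0, a) (1, c) * ip B (1, c) (0, a')) := by
      intro c
      rw [star_V4, V4_apply]
      linear_combination (36 * ip B (2, k) (0, a) * ip B (0, a') (2, k) *
        (ip B (0, a) (1, c) * ip B (1, c) (0, a'))) * h12 c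
    simp only [h1, ← Finset.mul_sum, ip_complete hB, ip_same hB]
    unfold dl
    split_ifs with h
    · subst h
      linear_combination 6 * h02 a
    · simp
  · intro a c
    rw [star_V4, V4_apply]
    linear_combination (36 * (ip B (0, a) (1, c) * ip B (1, c) (0, a)) *
      (ip B (1, c) (2, k) * ip B (2, k) (1, c))) * h02 a +
      (6 * (ip B (1, c) (2, k) * ip B (2, k) (1, c))) * h01 a c + h12 c
  · intro a
    have h1 : ∀ c, V4 B k a c = (6 * ip B (2, k) (0, a)) *
        (ip B (0, a) (1, c) * ip B (1, c) (2, k)) := fun c => by rw [V4_apply]; ring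
    simp only [h1, ← Finset.mul_sum, ip_complete hB]
    linear_combination 6 * h02 a
  · intro c
    have h1 : ∀ a, V4 B k a c = (6 * ip B (1, c) (2, k)) *
        (ip B (2, k) (0, a) * ip B (0, a) (1, c)) := fun a => by rw [V4_apply]; ring
    simp only [h1, ← Finset.mul_sum, ip_complete hB]
    linear_combination 6 * h12 c

theorem q611_of (hB : IsMUBs B) (k l : Fin 6) : Q611 (V4 B k) (be4 B k l) := by
  have h23 := ip_mul hB (u := (2, k)) (v := (3, l)) (by show (2 : Fin 4) ≠ 3; decide)
  refine ⟨flat_V4 hB k, ?_, ?_, ?_⟩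
  · intro a
    rw [star_be4]
    unfold be4
    have e1 := ip_mul hB (u := (0, a)) (v := (2, k)) (by show (0 : Fin 4) ≠ 2; decide)
    have e2 := ip_mul hB (u := (0, a)) (v := (3, l)) (by show (0 : Fin 4) ≠ 3; decide)
    linear_combination (216 * (ip B (0, a) (3, l) * ip B (3, l) (0, a)) *
        (ip B (2, k) (3, l) * ip B (3, l) (2, k))) * e1 +
      (36 * (ip B (2, k) (3, l) * ip B (3, l) (2, k))) * e2 + 6 * h23 +
      (36 * (ip B (0, a) (2, k) * ip B (2, k) (0, a)) *
        (ip B (0, a) (3, l) * ip B (3, l) (0, a)) *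
        (ip B (2, k) (3, l) * ip B (3, l) (2, k))) * s6_sq
  · intro c
    rw [gam4 hB, star_ga4]
    unfold ga4
    have e1 := ip_mul hB (u := (1, c)) (v := (2, k)) (by show (1 : Fin 4) ≠ 2; decide)
    have e2 := ip_mul hB (u := (1, c)) (v := (3, l)) (by show (1 : Fin 4) ≠ 3; decide)
    linear_combination (216 * (ip B (1, c) (3, l) * ip B (3, l) (1, c)) *
        (ip B (2, k) (3, l) * ip B (3, l) (2, k))) * e1 +
      (36 * (ip B (2, k) (3, l) * ip B (3, l) (2, k))) * e2 + 6 * h23 +
      (36 * (ip B (1, c) (2, k) * ip B (2, k) (1, c)) *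
        (ip B (1, c) (3, l) * ip B (3, l) (1, c)) *
        (ip B (2, k) (3, l) * ip B (3, l) (2, k))) * s6_sq
  · unfold be4
    have h1 : ∀ a, 6 * s6 * ip B (2, k) (0, a) * ip B (0, a) (3, l) * ip B (3, l) (2, k)
        = (6 * s6 * ip B (3, l) (2, k)) * (ip B (2, k) (0, a) * ip B (0, a) (3, l)) :=
      fun a => by ring
    simp only [h1, ← Finset.mul_sum, ip_complete hB]
    linear_combination 6 * s6 * h23

end Vale.Agent.P355.H349
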