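import Vale.Agent.P355.H349.Frame4
import Vale.Agent.P355.H182.Triple

/-! Functions of mean zero on the configurations `{6,6,1,1}` of a quadruple of mutually unbiased
bases; a function of mean zero which is positive on all configurations excludes quadruples. -/

namespace Vale.Agent.P355.H349

open Finset Matrix Vale.Agent.P355 H693

/-- the sum of a function over all configurations of a quadruple. -/
noncomputable def S4 (T : M6 → (Fin 6 → ℂ) → ℝ) (B : Fin 4 → M6) : ℝ :=
  ∑ k, ∑ l, T (V4 B k) (be4 B k l)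

/-- functions whose sum over all the configurations of a quadruple, in all orders, vanishes. -/
def MeanZero (T : M6 → (Fin 6 → ℂ) → ℝ) : Prop :=
  ∀ B : Fin 4 → M6, IsMUBs B → ∑ π : Equiv.Perm (Fin 4), S4 T (fun i => B (π i)) = 0

theorem mubs_perm {B : Fin 4 → M6} (hB : IsMUBs B) (π : Equiv.Perm (Fin 4)) :
    IsMUBs (fun i => B (π i)) :=
  ⟨fun i => hB.1 _, fun i j hij => hB.2 _ _ fun h => hij (π.injective h)⟩

theorem MeanZero.of {T : M6 → (Fin 6 → ℂ) → ℝ}
    (h : ∀ B : Fin 4 → M6, IsMUBs B → S4 T B = 0) : MeanZero T := fun B hB =>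
  Finset.sum_eq_zero fun π _ => h _ (mubs_perm hB π)

theorem MeanZero.zero : MeanZero fun _ _ => 0 := MeanZero.of fun B _ => by simp [S4]

theorem MeanZero.add {T T' : M6 → (Fin 6 → ℂ) → ℝ} (h : MeanZero T) (h' : MeanZero T') :
    MeanZero fun V be => T V be + T' V be := fun B hB => by
  have : ∀ π : Equiv.Perm (Fin 4), S4 (fun V be => T V be + T' V be) (fun i => B (π i))
      = S4 T (fun i => B (π i)) + S4 T' (fun i => B (π i)) := fun π => by
    unfold S4
    simp only [Finset.sum_add_distrib]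
  simp only [this, Finset.sum_add_distrib, h B hB, h' B hB, add_zero]

theorem MeanZero.smul {T : M6 → (Fin 6 → ℂ) → ℝ} (h : MeanZero T) (r : ℝ) :
    MeanZero fun V be => r * T V be := fun B hB => by
  have : ∀ π : Equiv.Perm (Fin 4), S4 (fun V be => r * T V be) (fun i => B (π i))
      = r * S4 T (fun i => B (π i)) := fun π => by
    unfold S4
    simp only [Finset.mul_sum]
  simp only [this, ← Finset.mul_sum, h B hB, mul_zero]

theorem MeanZero.sub {T T' : M6 → (Fin 6 → ℂ) → ℝ} (h : MeanZero T) (h' : MeanZero T') :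
    MeanZero fun V be => T V be - T' V be := by
  have := h.add (h'.smul (-1))
  simpa only [neg_one_mul, ← sub_eq_add_neg] using this

theorem MeanZero.sum {ι : Type*} (s : Finset ι) {T : ι → M6 → (Fin 6 → ℂ) → ℝ}
    (h : ∀ i ∈ s, MeanZero (T i)) : MeanZero fun V be => ∑ i ∈ s, T i V be := by
  classical
  induction s using Finset.induction_on with
  | empty => simpa using MeanZero.zero
  | insert i s hi ih =>
    have h1 := (h i (Finset.mem_insert_self i s)).add
      (ih fun j hj => h j (Finset.mem_insert_of_mem hj))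
    simpa only [Finset.sum_insert hi] using h1

theorem MeanZero.congr {T T' : M6 → (Fin 6 → ℂ) → ℝ} (h : MeanZero T)
    (e : ∀ B : Fin 4 → M6, IsMUBs B → ∀ k l, T' (V4 B k) (be4 B k l) = T (V4 B k) (be4 B k l)) :
    MeanZero T' := fun B hB => by
  have : ∀ π : Equiv.Perm (Fin 4), S4 T' (fun i => B (π i)) = S4 T (fun i => B (π i)) :=
    fun π => by
      unfold S4
      simp only [e _ (mubs_perm hB π)]
  simp only [this, h B hB]

/-- a function of mean zero only matters on the configurations. -/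
theorem MeanZero.congr' {T T' : M6 → (Fin 6 → ℂ) → ℝ} (h : MeanZero T)
    (e : ∀ V be, Q611 V be → T' V be = T V be) : MeanZero T' :=
  h.congr fun _ hB k l => e _ _ (q611_of hB k l)

/-! ### The completeness of the fourth basis -/

section sums
variable {B : Fin 4 → M6}

theorem h02 (hB : IsMUBs B) (k a : Fin 6) : ip B (0, a) (2, k) * ip B (2, k) (0, a) = 1 / 6 :=
  ip_mul hB (by show (0 : Fin 4) ≠ 2; decide)

theorem h12 (hB : IsMUBs B) (k c : Fin 6) : ip B (1, c) (2, k) * ip B (2, k) (1, c) = 1 / 6 :=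
  ip_mul hB (by show (1 : Fin 4) ≠ 2; decide)

theorem h01 (hB : IsMUBs B) (a c : Fin 6) : ip B (0, a) (1, c) * ip B (1, c) (0, a) = 1 / 6 :=
  ip_mul hB (by show (0 : Fin 4) ≠ 1; decide)

theorem h03 (hB : IsMUBs B) (a l : Fin 6) : ip B (0, a) (3, l) * ip B (3, l) (0, a) = 1 / 6 :=
  ip_mul hB (by show (0 : Fin 4) ≠ 3; decide)

theorem h13 (hB : IsMUBs B) (c l : Fin 6) : ip B (1, c) (3, l) * ip B (3, l) (1, c) = 1 / 6 :=
  ip_mul hB (by show (1 : Fin 4) ≠ 3; decide)

theorem h23 (hB : IsMUBs B) (k l : Fin 6) : ip B (2, k) (3, l) * ip B (3, l) (2, k) = 1 / 6 :=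
  ip_mul hB (by show (2 : Fin 4) ≠ 3; decide)

theorem sum_ac (hB : IsMUBs B) (k a c : Fin 6) :
    ∑ l, be4 B k l a * star (ga4 B k l c) = 6 * V4 B k a c := by
  have h1 : ∀ l, be4 B k l a * star (ga4 B k l c)
      = (36 * ip B (2, k) (0, a) * ip B (1, c) (2, k)) *
        (ip B (0, a) (3, l) * ip B (3, l) (1, c)) := by
    intro l
    rw [star_ga4]
    unfold be4
    linear_combination (36 * s6 * s6 * ip B (2, k) (0, a) * ip B (1, c) (2, k) *
        (ip B (0, a) (3, l) * ip B (3, l) (1, c))) * h23 hB k l +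
      (6 * ip B (2, k) (0, a) * ip B (1, c) (2, k) *
        (ip B (0, a) (3, l) * ip B (3, l) (1, c))) * s6_sq
  simp only [h1, ← Finset.mul_sum, ip_complete hB, V4_apply]
  ring

theorem sum_aa (hB : IsMUBs B) (k a a' : Fin 6) :
    ∑ l, be4 B k l a * star (be4 B k l a') = 6 * dl a a' := by
  have h1 : ∀ l, be4 B k l a * star (be4 B k l a')
      = (36 * ip B (2, k) (0, a) * ip B (0, a') (2, k)) *
        (ip B (0, a) (3, l) * ip B (3, l) (0, a')) := by
    intro l
    rw [star_be4]
    unfold be4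
    linear_combination (36 * s6 * s6 * ip B (2, k) (0, a) * ip B (0, a') (2, k) *
        (ip B (0, a) (3, l) * ip B (3, l) (0, a'))) * h23 hB k l +
      (6 * ip B (2, k) (0, a) * ip B (0, a') (2, k) *
        (ip B (0, a) (3, l) * ip B (3, l) (0, a'))) * s6_sq
  simp only [h1, ← Finset.mul_sum, ip_complete hB, ip_same hB]
  unfold dl
  split_ifs with h
  · subst h
    linear_combination 36 * h02 hB k a
  · simp

theorem sum_cc (hB : IsMUBs B) (k c c' : Fin 6) :
    ∑ l, ga4 B k l c * star (ga4 B k l c') = 6 * dl c c' := by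
  have h1 : ∀ l, ga4 B k l c * star (ga4 B k l c')
      = (36 * ip B (2, k) (1, c) * ip B (1, c') (2, k)) *
        (ip B (1, c) (3, l) * ip B (3, l) (1, c')) := by
    intro l
    rw [star_ga4]
    unfold ga4
    linear_combination (36 * s6 * s6 * ip B (2, k) (1, c) * ip B (1, c') (2, k) *
        (ip B (1, c) (3, l) * ip B (3, l) (1, c'))) * h23 hB k l +
      (6 * ip B (2, k) (1, c) * ip B (1, c') (2, k) *
        (ip B (1, c) (3, l) * ip B (3, l) (1, c'))) * s6_sq
  simp only [h1, ← Finset.mul_sum, ip_complete hB, ip_same hB]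
  unfold dl
  split_ifs with h
  · subst h
    linear_combination 36 * h12 hB k c
  · simp

theorem sum_a (hB : IsMUBs B) (k a : Fin 6) : ∑ l, be4 B k l a = s6 := by
  unfold be4
  have h1 : ∀ l, 6 * s6 * ip B (2, k) (0, a) * ip B (0, a) (3, l) * ip B (3, l) (2, k)
      = (6 * s6 * ip B (2, k) (0, a)) * (ip B (0, a) (3, l) * ip B (3, l) (2, k)) :=
    fun l => by ring
  simp only [h1, ← Finset.mul_sum, ip_complete hB]
  linear_combination 6 * s6 * h02 hB k a

theorem sum_c (hB : IsMUBs B) (k c : Fin 6) : ∑ l, ga4 B k l c = s6 := by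
  unfold ga4
  have h1 : ∀ l, 6 * s6 * ip B (2, k) (1, c) * ip B (1, c) (3, l) * ip B (3, l) (2, k)
      = (6 * s6 * ip B (2, k) (1, c)) * (ip B (1, c) (3, l) * ip B (3, l) (2, k)) :=
    fun l => by ring
  simp only [h1, ← Finset.mul_sum, ip_complete hB]
  linear_combination 6 * s6 * h12 hB k c

end sums

/-- from a complex identity for each `k` to a function of mean zero. -/
theorem MeanZero.of_sum (f : M6 → (Fin 6 → ℂ) → ℂ)
    (h : ∀ B : Fin 4 → M6, IsMUBs B → ∀ k, ∑ l, f (V4 B k) (be4 B k l) = 0) :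
    MeanZero fun V be => (f V be).re :=
  MeanZero.of fun B hB => by
    unfold S4
    simp only [← Complex.re_sum, h B hB]
    simp

/-- (AC) the mixed functions. -/
theorem MeanZero.ac (F : M6 → Fin 6 → Fin 6 → ℂ) :
    MeanZero fun V be => (∑ a, ∑ c, F V a c * (be a * star (gam V be c) - V a c)).re :=
  MeanZero.of_sum (fun V be => ∑ a, ∑ c, F V a c * (be a * star (gam V be c) - V a c))
    fun B hB k => by
      rw [Finset.sum_comm]
      refine Finset.sum_eq_zero fun a _ => ?_
      rw [Finset.sum_comm]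
      refine Finset.sum_eq_zero fun c _ => ?_
      rw [← Finset.mul_sum, Finset.sum_sub_distrib]
      simp only [gam4 hB, sum_ac hB, Finset.sum_const, Finset.card_univ, Fintype.card_fin,
        nsmul_eq_mul]
      push_cast
      ring

/-- (AA) -/
theorem MeanZero.aa (F : M6 → Fin 6 → Fin 6 → ℂ) :
    MeanZero fun V be => (∑ a, ∑ a', F V a a' * (be a * star (be a') - dl a a')).re :=
  MeanZero.of_sum (fun V be => ∑ a, ∑ a', F V a a' * (be a * star (be a') - dl a a'))
    fun B hB k => by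
      rw [Finset.sum_comm]
      refine Finset.sum_eq_zero fun a _ => ?_
      rw [Finset.sum_comm]
      refine Finset.sum_eq_zero fun c _ => ?_
      rw [← Finset.mul_sum, Finset.sum_sub_distrib]
      simp only [sum_aa hB, Finset.sum_const, Finset.card_univ, Fintype.card_fin, nsmul_eq_mul]
      push_cast
      ring

/-- (CC) -/
theorem MeanZero.cc (F : M6 → Fin 6 → Fin 6 → ℂ) :
    MeanZero fun V be => (∑ c, ∑ c', F V c c' *
      (gam V be c * star (gam V be c') - dl c c')).re :=
  MeanZero.of_sum (fun V be => ∑ c, ∑ c', F V c c' * (gam V be c * star (gam V be c') - dl c c'))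
    fun B hB k => by
      rw [Finset.sum_comm]
      refine Finset.sum_eq_zero fun a _ => ?_
      rw [Finset.sum_comm]
      refine Finset.sum_eq_zero fun c _ => ?_
      rw [← Finset.mul_sum, Finset.sum_sub_distrib]
      simp only [gam4 hB, sum_cc hB, Finset.sum_const, Finset.card_univ, Fintype.card_fin,
        nsmul_eq_mul]
      push_cast
      ring

/-- (A) -/
theorem MeanZero.a (F : M6 → Fin 6 → ℂ) :
    MeanZero fun V be => (∑ a, F V a * (6 * be a - s6)).re :=
  MeanZero.of_sum (fun V be => ∑ a, F V a * (6 * be a - s6)) fun B hB k => by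
    rw [Finset.sum_comm]
    refine Finset.sum_eq_zero fun a _ => ?_
    rw [← Finset.mul_sum, Finset.sum_sub_distrib, ← Finset.mul_sum]
    simp only [sum_a hB, Finset.sum_const, Finset.card_univ, Fintype.card_fin, nsmul_eq_mul]
    push_cast
    ring

/-- (C) -/
theorem MeanZero.c (F : M6 → Fin 6 → ℂ) :
    MeanZero fun V be => (∑ c, F V c * (6 * gam V be c - s6)).re :=
  MeanZero.of_sum (fun V be => ∑ c, F V c * (6 * gam V be c - s6)) fun B hB k => by
    rw [Finset.sum_comm]
    refine Finset.sum_eq_zero fun a _ => ?_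
    rw [← Finset.mul_sum, Finset.sum_sub_distrib, ← Finset.mul_sum]
    simp only [gam4 hB, sum_c hB, Finset.sum_const, Finset.card_univ, Fintype.card_fin,
      nsmul_eq_mul]
    push_cast
    ring

/-! ### Property (N7) of the pairs -/

section n7
variable {B : Fin 4 → M6}

/-- (N7) of the pairs of a quadruple, for the inner products. -/
theorem n7_ip (hB : IsMUBs B) {i j : Fin 4} (hij : i ≠ j) (e : Equiv.Perm (Fin 6)) :
    ∑ l, ip B (i, e 0) (j, l) * ip B (i, e 1) (j, l) * ip B (i, e 2) (j, l) *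
      (ip B (j, l) (i, e 3) * ip B (j, l) (i, e 4) * ip B (j, l) (i, e 5)) = 0 := by
  obtain ⟨m, hm⟩ : ∃ m : Fin 4, i ≠ m ∧ j ≠ m := by
    revert hij; revert i j; decide
  have h := (H182.triple (hB.1 i) (hB.1 j) (hB.1 m) (hB.2 i j hij) (hB.2 i m hm.1)
    (hB.2 j m hm.2)).1 e
  have e1 : ∀ a l, ((B i)ᴴ * B j) a l = ip B (i, a) (j, l) := fun a l => rfl
  simp only [e1, star_ip'] at h
  exact h

/-- (N7) for the flat unitary of a configuration. -/
theorem n7_V (hB : IsMUBs B) (k : Fin 6) : N7p (V4 B k) := fun e => by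
  have h := n7_ip hB (i := 0) (j := 1) (by decide) e
  have h1 : ∀ c, V4 B k (e 0) c * V4 B k (e 1) c * V4 B k (e 2) c *
      (star (V4 B k (e 3) c) * star (V4 B k (e 4) c) * star (V4 B k (e 5) c))
      = (216 * (ip B (2, k) (0, e 0) * ip B (2, k) (0, e 1) * ip B (2, k) (0, e 2) *
          (ip B (0, e 3) (2, k) * ip B (0, e 4) (2, k) * ip B (0, e 5) (2, k)))) *
        (ip B (0, e 0) (1, c) * ip B (0, e 1) (1, c) * ip B (0, e 2) (1, c) *
          (ip B (1, c) (0, e 3) * ip B (1, c) (0, e 4) * ip B (1, c) (0, e 5))) := by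
    intro c
    simp only [star_V4]
    simp only [V4_apply]
    have p := h12 hB k c
    have p3 : (ip B (1, c) (2, k) * ip B (2, k) (1, c)) ^ 3 = (1 / 6) ^ 3 := by rw [p]
    linear_combination (46656 * (ip B (2, k) (0, e 0) * ip B (2, k) (0, e 1) *
        ip B (2, k) (0, e 2) *
          (ip B (0, e 3) (2, k) * ip B (0, e 4) (2, k) * ip B (0, e 5) (2, k))) *
        (ip B (0, e 0) (1, c) * ip B (0, e 1) (1, c) * ip B (0, e 2) (1, c) *
          (ip B (1, c) (0, e 3) * ip B (1, c) (0, e 4) * ip B (1, c) (0, e 5)))) * p3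
  simp only [h1, ← Finset.mul_sum, h, mul_zero]

theorem n7_VH (hB : IsMUBs B) (k : Fin 6) : N7p (V4 B k)ᴴ := fun e => by
  have h := n7_ip hB (i := 1) (j := 0) (by decide) e
  have h1 : ∀ a, (V4 B k)ᴴ (e 0) a * (V4 B k)ᴴ (e 1) a * (V4 B k)ᴴ (e 2) a *
      (star ((V4 B k)ᴴ (e 3) a) * star ((V4 B k)ᴴ (e 4) a) * star ((V4 B k)ᴴ (e 5) a))
      = (216 * (ip B (2, k) (1, e 0) * ip B (2, k) (1, e 1) * ip B (2, k) (1, e 2) *
          (ip B (1, e 3) (2, k) * ip B (1, e 4) (2, k) * ip B (1, e 5) (2, k)))) *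
        (ip B (1, e 0) (0, a) * ip B (1, e 1) (0, a) * ip B (1, e 2) (0, a) *
          (ip B (0, a) (1, e 3) * ip B (0, a) (1, e 4) * ip B (0, a) (1, e 5))) := by
    intro a
    have hs : ∀ c, star ((V4 B k)ᴴ c a) = V4 B k a c := fun c => star_star _
    simp only [hs]
    simp only [conjTranspose_apply, star_V4]
    simp only [V4_apply]
    have p := h02 hB k a
    have p3 : (ip B (0, a) (2, k) * ip B (2, k) (0, a)) ^ 3 = (1 / 6) ^ 3 := by rw [p]
    linear_combination (46656 * (ip B (2, k) (1, e 0) * ip B (2, k) (1, e 1) *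
        ip B (2, k) (1, e 2) *
          (ip B (1, e 3) (2, k) * ip B (1, e 4) (2, k) * ip B (1, e 5) (2, k))) *
        (ip B (1, e 0) (0, a) * ip B (1, e 1) (0, a) * ip B (1, e 2) (0, a) *
          (ip B (0, a) (1, e 3) * ip B (0, a) (1, e 4) * ip B (0, a) (1, e 5)))) * p3
  simp only [h1, ← Finset.mul_sum, h, mul_zero]

theorem sum_n7A (hB : IsMUBs B) (k : Fin 6) (e : Equiv.Perm (Fin 6)) :
    ∑ l, be4 B k l (e 0) * be4 B k l (e 1) * be4 B k l (e 2) *
      (star (be4 B k l (e 3)) * star (be4 B k l (e 4)) * star (be4 B k l (e 5))) = 0 := by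
  have h := n7_ip hB (i := 0) (j := 3) (by decide) e
  have h1 : ∀ l, be4 B k l (e 0) * be4 B k l (e 1) * be4 B k l (e 2) *
      (star (be4 B k l (e 3)) * star (be4 B k l (e 4)) * star (be4 B k l (e 5)))
      = (46656 * (ip B (2, k) (0, e 0) * ip B (2, k) (0, e 1) * ip B (2, k) (0, e 2) *
          (ip B (0, e 3) (2, k) * ip B (0, e 4) (2, k) * ip B (0, e 5) (2, k)))) *
        (ip B (0, e 0) (3, l) * ip B (0, e 1) (3, l) * ip B (0, e 2) (3, l) *
          (ip B (3, l) (0, e 3) * ip B (3, l) (0, e 4) * ip B (3, l) (0, e 5))) := by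
    intro l
    simp only [star_be4]
    unfold be4
    have p := h23 hB k l
    have p3 : (s6 * s6 * (ip B (2, k) (3, l) * ip B (3, l) (2, k))) ^ 3 = 1 := by
      rw [p, s6_sq]; norm_num
    linear_combination (46656 * (ip B (2, k) (0, e 0) * ip B (2, k) (0, e 1) *
        ip B (2, k) (0, e 2) *
          (ip B (0, e 3) (2, k) * ip B (0, e 4) (2, k) * ip B (0, e 5) (2, k))) *
        (ip B (0, e 0) (3, l) * ip B (0, e 1) (3, l) * ip B (0, e 2) (3, l) *
          (ip B (3, l) (0, e 3) * ip B (3, l) (0, e 4) * ip B (3, l) (0, e 5)))) * p3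
  simp only [h1, ← Finset.mul_sum, h, mul_zero]

theorem sum_n7C (hB : IsMUBs B) (k : Fin 6) (e : Equiv.Perm (Fin 6)) :
    ∑ l, ga4 B k l (e 0) * ga4 B k l (e 1) * ga4 B k l (e 2) *
      (star (ga4 B k l (e 3)) * star (ga4 B k l (e 4)) * star (ga4 B k l (e 5))) = 0 := by
  have h := n7_ip hB (i := 1) (j := 3) (by decide) e
  have h1 : ∀ l, ga4 B k l (e 0) * ga4 B k l (e 1) * ga4 B k l (e 2) *
      (star (ga4 B k l (e 3)) * star (ga4 B k l (e 4)) * star (ga4 B k l (e 5)))
      = (46656 * (ip B (2, k) (1, e 0) * ip B (2, k) (1, e 1) * ip B (2, k) (1, e 2) *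
          (ip B (1, e 3) (2, k) * ip B (1, e 4) (2, k) * ip B (1, e 5) (2, k)))) *
        (ip B (1, e 0) (3, l) * ip B (1, e 1) (3, l) * ip B (1, e 2) (3, l) *
          (ip B (3, l) (1, e 3) * ip B (3, l) (1, e 4) * ip B (3, l) (1, e 5))) := by
    intro l
    simp only [star_ga4]
    unfold ga4
    have p := h23 hB k l
    have p3 : (s6 * s6 * (ip B (2, k) (3, l) * ip B (3, l) (2, k))) ^ 3 = 1 := by
      rw [p, s6_sq]; norm_num
    linear_combination (46656 * (ip B (2, k) (1, e 0) * ip B (2, k) (1, e 1) *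
        ip B (2, k) (1, e 2) *
          (ip B (1, e 3) (2, k) * ip B (1, e 4) (2, k) * ip B (1, e 5) (2, k))) *
        (ip B (1, e 0) (3, l) * ip B (1, e 1) (3, l) * ip B (1, e 2) (3, l) *
          (ip B (3, l) (1, e 3) * ip B (3, l) (1, e 4) * ip B (3, l) (1, e 5)))) * p3
  simp only [h1, ← Finset.mul_sum, h, mul_zero]

end n7

/-- (N7) of the pair of the first and the fourth basis. -/
theorem MeanZero.n7A (F : M6 → Equiv.Perm (Fin 6) → ℂ) :
    MeanZero fun V be => (∑ e : Equiv.Perm (Fin 6), F V e *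
      (be (e 0) * be (e 1) * be (e 2) *
        (star (be (e 3)) * star (be (e 4)) * star (be (e 5))))).re :=
  MeanZero.of_sum (fun V be => ∑ e : Equiv.Perm (Fin 6), F V e *
      (be (e 0) * be (e 1) * be (e 2) *
        (star (be (e 3)) * star (be (e 4)) * star (be (e 5))))) fun B hB k => by
    rw [Finset.sum_comm]
    refine Finset.sum_eq_zero fun e _ => ?_
    rw [← Finset.mul_sum, sum_n7A hB, mul_zero]

/-- (N7) of the pair of the second and the fourth basis. -/
theorem MeanZero.n7C (F : M6 → Equiv.Perm (Fin 6) → ℂ) :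
    MeanZero fun V be => (∑ e : Equiv.Perm (Fin 6), F V e *
      (gam V be (e 0) * gam V be (e 1) * gam V be (e 2) *
        (star (gam V be (e 3)) * star (gam V be (e 4)) * star (gam V be (e 5))))).re :=
  MeanZero.of_sum (fun V be => ∑ e : Equiv.Perm (Fin 6), F V e *
      (gam V be (e 0) * gam V be (e 1) * gam V be (e 2) *
        (star (gam V be (e 3)) * star (gam V be (e 4)) * star (gam V be (e 5))))) fun B hB k => by
    rw [Finset.sum_comm]
    refine Finset.sum_eq_zero fun e _ => ?_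
    simp only [gam4 hB]
    rw [← Finset.mul_sum, sum_n7C hB, mul_zero]

/-! ### Exchange of the roles -/

/-- reindexing of the sum over the orders. -/
theorem sum_reindex (g : (Fin 4 → M6) → ℝ) (B : Fin 4 → M6) (τ : Equiv.Perm (Fin 4)) :
    ∑ π : Equiv.Perm (Fin 4), g (fun i => B (π i))
      = ∑ π : Equiv.Perm (Fin 4), g (fun i => B (π (τ i))) :=
  (Equiv.sum_comp (Equiv.mulRight τ) fun π : Equiv.Perm (Fin 4) => g (fun i => B (π i))).symm

theorem S4_swapAC (T : M6 → (Fin 6 → ℂ) → ℝ) {B : Fin 4 → M6} (hB : IsMUBs B) :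
    S4 (fun V be => T Vᴴ (gam V be)) B = S4 T (fun i => B (Equiv.swap 0 1 i)) := by
  unfold S4
  refine Finset.sum_congr rfl fun k _ => Finset.sum_congr rfl fun l _ => ?_
  refine congrArg₂ T ?_ ?_
  · ext a c
    rw [conjTranspose_apply, star_V4, V4_apply]
    have e0 : Equiv.swap (0 : Fin 4) 1 0 = 1 := by decide
    have e1 : Equiv.swap (0 : Fin 4) 1 1 = 0 := by decide
    have e2 : Equiv.swap (0 : Fin 4) 1 2 = 2 := by decide
    unfold ip vec
    simp only [e0, e1, e2]
    ring
  · funext c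
    rw [gam4 hB]
    have e0 : Equiv.swap (0 : Fin 4) 1 0 = 1 := by decide
    have e2 : Equiv.swap (0 : Fin 4) 1 2 = 2 := by decide
    have e3 : Equiv.swap (0 : Fin 4) 1 3 = 3 := by decide
    unfold ga4 be4 ip vec
    simp only [e0, e2, e3]

/-- exchange of the two full bases, for an arbitrary function. -/
theorem MeanZero.diffAC (T : M6 → (Fin 6 → ℂ) → ℝ) :
    MeanZero fun V be => T V be - T Vᴴ (gam V be) := fun B hB => by
  have h1 : ∀ π : Equiv.Perm (Fin 4),
      S4 (fun V be => T V be - T Vᴴ (gam V be)) (fun i => B (π i))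
        = S4 T (fun i => B (π i)) - S4 (fun V be => T Vᴴ (gam V be)) (fun i => B (π i)) :=
    fun π => by
      unfold S4
      simp only [Finset.sum_sub_distrib]
  simp only [h1, Finset.sum_sub_distrib]
  rw [sum_reindex (S4 T) B (Equiv.swap 0 1), sub_eq_zero]
  exact Finset.sum_congr rfl fun π _ => (S4_swapAC T (mubs_perm hB π)).symm

/-- exchange of the two full bases. -/
theorem MeanZero.swapAC {T : M6 → (Fin 6 → ℂ) → ℝ} (h : MeanZero T) :
    MeanZero fun V be => T Vᴴ (gam V be) := fun B hB => by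
  have h1 := h B hB
  rw [sum_reindex (S4 T) B (Equiv.swap 0 1)] at h1
  rw [← h1]
  exact Finset.sum_congr rfl fun π _ => S4_swapAC T (mubs_perm hB π)

/-- the flat unitary seen from the fourth basis. -/
def Vsw (V : M6) (be : Fin 6 → ℂ) : M6 := Matrix.of fun a c => star (be a) * V a c * gam V be c

theorem Vsw4 {B : Fin 4 → M6} (hB : IsMUBs B) (k l a c : Fin 6) :
    Vsw (V4 B k) (be4 B k l) a c = V4 (fun i => B (Equiv.swap 2 3 i)) l a c := by
  have e0 : Equiv.swap (2 : Fin 4) 3 0 = 0 := by decide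
  have e1 : Equiv.swap (2 : Fin 4) 3 1 = 1 := by decide
  have e2 : Equiv.swap (2 : Fin 4) 3 2 = 3 := by decide
  have hr : V4 (fun i => B (Equiv.swap 2 3 i)) l a c
      = 6 * ip B (3, l) (0, a) * ip B (0, a) (1, c) * ip B (1, c) (3, l) := by
    unfold V4 ip vec
    simp only [e0, e1, e2, Matrix.of_apply]
  rw [hr]
  unfold Vsw
  rw [Matrix.of_apply, gam4 hB, star_be4, V4_apply]
  unfold ga4
  linear_combination (216 * s6 * s6 * (ip B (1, c) (2, k) * ip B (2, k) (1, c)) *
      (ip B (2, k) (3, l) * ip B (3, l) (2, k)) *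
      (ip B (3, l) (0, a) * ip B (0, a) (1, c) * ip B (1, c) (3, l))) * h02 hB k a +
    (36 * s6 * s6 * (ip B (2, k) (3, l) * ip B (3, l) (2, k)) *
      (ip B (3, l) (0, a) * ip B (0, a) (1, c) * ip B (1, c) (3, l))) * h12 hB k c +
    (6 * s6 * s6 * (ip B (3, l) (0, a) * ip B (0, a) (1, c) * ip B (1, c) (3, l))) * h23 hB k l +
    (ip B (3, l) (0, a) * ip B (0, a) (1, c) * ip B (1, c) (3, l)) * s6_sq

theorem S4_swapBD (T : M6 → (Fin 6 → ℂ) → ℝ) {B : Fin 4 → M6} (hB : IsMUBs B) :
    S4 (fun V be => T (Vsw V be) (fun a => star (be a))) B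
      = S4 T (fun i => B (Equiv.swap 2 3 i)) := by
  unfold S4
  rw [Finset.sum_comm]
  refine Finset.sum_congr rfl fun l _ => Finset.sum_congr rfl fun k _ => ?_
  refine congrArg₂ T ?_ ?_
  · ext a c
    exact Vsw4 hB k l a c
  · funext a
    rw [star_be4]
    have e0 : Equiv.swap (2 : Fin 4) 3 0 = 0 := by decide
    have e2 : Equiv.swap (2 : Fin 4) 3 2 = 3 := by decide
    have e3 : Equiv.swap (2 : Fin 4) 3 3 = 2 := by decide
    unfold be4 ip vec
    simp only [e0, e2, e3]
    ring

/-- exchange of the third and the fourth basis, for an arbitrary function. -/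
theorem MeanZero.diffBD (T : M6 → (Fin 6 → ℂ) → ℝ) :
    MeanZero fun V be => T V be - T (Vsw V be) (fun a => star (be a)) := fun B hB => by
  have h1 : ∀ π : Equiv.Perm (Fin 4),
      S4 (fun V be => T V be - T (Vsw V be) (fun a => star (be a))) (fun i => B (π i))
        = S4 T (fun i => B (π i))
          - S4 (fun V be => T (Vsw V be) (fun a => star (be a))) (fun i => B (π i)) :=
    fun π => by
      unfold S4
      simp only [Finset.sum_sub_distrib]
  simp only [h1, Finset.sum_sub_distrib]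
  rw [sum_reindex (S4 T) B (Equiv.swap 2 3), sub_eq_zero]
  exact Finset.sum_congr rfl fun π _ => (S4_swapBD T (mubs_perm hB π)).symm

/-- exchange of the third and the fourth basis. -/
theorem MeanZero.swapBD {T : M6 → (Fin 6 → ℂ) → ℝ} (h : MeanZero T) :
    MeanZero fun V be => T (Vsw V be) (fun a => star (be a)) := fun B hB => by
  have h1 := h B hB
  rw [sum_reindex (S4 T) B (Equiv.swap 2 3)] at h1
  rw [← h1]
  exact Finset.sum_congr rfl fun π _ => S4_swapBD T (mubs_perm hB π)

/-- the sum over the vectors `a` of a function of `a`, of the vectors `b`, `d` and of the basis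
`C`. -/
noncomputable def triF (ψ : (Fin 6 → ℂ) → (Fin 6 → ℂ) → ℂ → ℝ) (V : M6) (be : Fin 6 → ℂ) : ℝ :=
  ∑ a, ψ (fun c => V a c) (gam V be) (be a)

/-- the same, with the roles of `a` and `b` exchanged. -/
noncomputable def triG (ψ : (Fin 6 → ℂ) → (Fin 6 → ℂ) → ℂ → ℝ) (V : M6) (be : Fin 6 → ℂ) : ℝ :=
  ∑ a, ψ (fun c => star (V a c)) (fun c => s6 * V a c * gam V be c * star (be a)) (star (be a))

theorem S4_tri (ψ : (Fin 6 → ℂ) → (Fin 6 → ℂ) → ℂ → ℝ) {B : Fin 4 → M6} (hB : IsMUBs B) :
    S4 (triG ψ) B = S4 (triF ψ) (fun i => B (Equiv.swap 0 2 i)) := by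
  have e0 : Equiv.swap (0 : Fin 4) 2 0 = 2 := by decide
  have e1 : Equiv.swap (0 : Fin 4) 2 1 = 1 := by decide
  have e2 : Equiv.swap (0 : Fin 4) 2 2 = 0 := by decide
  have e3 : Equiv.swap (0 : Fin 4) 2 3 = 3 := by decide
  have hB' := mubs_perm hB (Equiv.swap 0 2)
  unfold S4 triF triG
  have key : ∀ k l a, ψ (fun c => star (V4 B k a c))
      (fun c => s6 * V4 B k a c * gam (V4 B k) (be4 B k l) c * star (be4 B k l a))
      (star (be4 B k l a)) =
      ψ (fun c => V4 (fun i => B (Equiv.swap 0 2 i)) a k c)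
        (gam (V4 (fun i => B (Equiv.swap 0 2 i)) a) (be4 (fun i => B (Equiv.swap 0 2 i)) a l))
        (be4 (fun i => B (Equiv.swap 0 2 i)) a l k) := by
    intro k l a
    congr 1
    · funext c
      rw [star_V4, V4_apply]
      unfold ip vec
      simp only [e0, e1, e2]
      ring
    · funext c
      rw [gam4 hB']
      have hr : ga4 (fun i => B (Equiv.swap 0 2 i)) a l c
          = 6 * s6 * ip B (0, a) (1, c) * ip B (1, c) (3, l) * ip B (3, l) (0, a) := by
        unfold ga4 ip vec
        simp only [e1, e2, e3]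
      rw [hr, gam4 hB, star_be4, V4_apply]
      unfold ga4
      linear_combination (216 * s6 * s6 * s6 * (ip B (1, c) (2, k) * ip B (2, k) (1, c)) *
          (ip B (2, k) (3, l) * ip B (3, l) (2, k)) *
          (ip B (0, a) (1, c) * ip B (1, c) (3, l) * ip B (3, l) (0, a))) * h02 hB k a +
        (36 * s6 * s6 * s6 * (ip B (2, k) (3, l) * ip B (3, l) (2, k)) *
          (ip B (0, a) (1, c) * ip B (1, c) (3, l) * ip B (3, l) (0, a))) * h12 hB k c +
        (6 * s6 * s6 * s6 * (ip B (0, a) (1, c) * ip B (1, c) (3, l) *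
          ip B (3, l) (0, a))) * h23 hB k l +
        (s6 * (ip B (0, a) (1, c) * ip B (1, c) (3, l) * ip B (3, l) (0, a))) * s6_sq
    · rw [star_be4]
      unfold be4 ip vec
      simp only [e0, e2, e3]
      ring
  simp only [key]
  calc _ = ∑ k, ∑ a, ∑ l, _ := Finset.sum_congr rfl fun k _ => Finset.sum_comm
    _ = _ := by
      rw [Finset.sum_comm]
      refine Finset.sum_congr rfl fun a _ => ?_
      rw [Finset.sum_comm]

/-- exchange of `a` and `b`. -/
theorem MeanZero.exchange (ψ : (Fin 6 → ℂ) → (Fin 6 → ℂ) → ℂ → ℝ) :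
    MeanZero fun V be => triF ψ V be - triG ψ V be := fun B hB => by
  have h1 : ∀ π : Equiv.Perm (Fin 4),
      S4 (fun V be => triF ψ V be - triG ψ V be) (fun i => B (π i))
        = S4 (triF ψ) (fun i => B (π i)) - S4 (triG ψ) (fun i => B (π i)) := fun π => by
    unfold S4
    simp only [Finset.sum_sub_distrib]
  simp only [h1, Finset.sum_sub_distrib]
  rw [sum_reindex (S4 (triF ψ)) B (Equiv.swap 0 2), sub_eq_zero]
  exact Finset.sum_congr rfl fun π _ => (S4_tri ψ (mubs_perm hB π)).symm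

/-! ### The main statements -/

/-- the configurations which occur in a quadruple of mutually unbiased bases. -/
structure Q4 (V : M6) (be : Fin 6 → ℂ) : Prop extends Q611 V be where
  n7 : N7p V
  n7H : N7p Vᴴ

theorem q4_of {B : Fin 4 → M6} (hB : IsMUBs B) (k l : Fin 6) : Q4 (V4 B k) (be4 B k l) :=
  ⟨q611_of hB k l, n7_V hB k, n7_VH hB k⟩

/-- **Frame.** A function of mean zero which is positive on all configurations excludes
quadruples. -/
theorem no_four {T : M6 → (Fin 6 → ℂ) → ℝ} (hT : MeanZero T)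
    (h : ∀ V be, Q4 V be → 0 < T V be) : ∀ B : Fin 4 → M6, ¬ IsMUBs B := fun B hB => by
  have h0 := hT B hB
  have h1 : 0 < ∑ π : Equiv.Perm (Fin 4), S4 T (fun i => B (π i)) := by
    refine Finset.sum_pos (fun π _ => ?_) Finset.univ_nonempty
    unfold S4
    exact Finset.sum_pos (fun k _ => Finset.sum_pos (fun l _ =>
      h _ _ (q4_of (mubs_perm hB π) k l)) Finset.univ_nonempty) Finset.univ_nonempty
  exact absurd h0 h1.ne'

theorem le_three {T : M6 → (Fin 6 → ℂ) → ℝ} (hT : MeanZero T)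
    (h : ∀ V be, Q4 V be → 0 < T V be) {n : ℕ} (B : Fin n → M6) (hB : IsMUBs B) : n ≤ 3 := by
  by_contra hn
  have hn : 4 ≤ n := by omega
  refine no_four hT h (fun i => B (Fin.castLE hn i)) ⟨fun i => hB.1 _, fun i j hij => hB.2 _ _ ?_⟩
  exact fun e => hij (Fin.castLE_injective hn e)

end Vale.Agent.P355.H349
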