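import Vale.Agent.P355.H349.Mean4
import Vale.Agent.P355.H138.Rel

/-! The array `Fin 7 → Fin 7 → ℂ` of a configuration of type `{6,6,1,1}`; the exchange of roles in
terms of the graph functions of `H138`. -/

namespace Vale.Agent.P355.H349

open Finset Matrix Vale.Agent.P355

set_option linter.unusedSectionVars false

/-- the array of a configuration: rows and columns `0..5` are the two full bases, the index `6` is
the vector of the fourth basis. -/
noncomputable def xx (V : M6) (be : Fin 6 → ℂ) : Fin 7 → Fin 7 → ℂ := fun r c =>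
  Fin.lastCases (motive := fun _ => ℂ)
    (Fin.lastCases (motive := fun _ => ℂ) 1 (fun c' => star (gam V be c')) c)
    (fun a => Fin.lastCases (motive := fun _ => ℂ) (be a) (fun c' => H138.s6 * V a c') c) r

theorem s6_eq : H138.s6 = s6 := rfl

section xx
variable {V : M6} {be : Fin 6 → ℂ}

@[simp] theorem xx_ac (a c : Fin 6) : xx V be a.castSucc c.castSucc = H138.s6 * V a c := by
  unfold xx; simp only [Fin.lastCases_castSucc]

@[simp] theorem xx_a (a : Fin 6) : xx V be a.castSucc 6 = be a := by
  unfold xx
  rw [show (6 : Fin 7) = Fin.last 6 from rfl]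
  simp only [Fin.lastCases_castSucc, Fin.lastCases_last]

@[simp] theorem xx_c (c : Fin 6) : xx V be 6 c.castSucc = star (gam V be c) := by
  unfold xx
  rw [show (6 : Fin 7) = Fin.last 6 from rfl]
  simp only [Fin.lastCases_castSucc, Fin.lastCases_last]

@[simp] theorem xx_66 : xx V be 6 6 = 1 := by
  unfold xx
  rw [show (6 : Fin 7) = Fin.last 6 from rfl]
  simp only [Fin.lastCases_last]

theorem Q611.be_unit (h : Q611 V be) (a : Fin 6) : be a * star (be a) = 1 := by
  rw [mul_comm]; exact h.bflat a

theorem Q611.ga_unit (h : Q611 V be) (c : Fin 6) : gam V be c * star (gam V be c) = 1 := by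
  rw [mul_comm]; exact h.gflat c

theorem Flat6.cols (h : Flat6 V) (b b' : Fin 6) : ∑ a, V a b * star (V a b') = dl b b' := by
  have h1 : V * Vᴴ = 1 := by
    ext i j
    rw [Matrix.mul_apply]
    simp only [conjTranspose_apply, h.rows, Matrix.one_apply]
    rfl
  have h2 : Vᴴ * V = 1 := mul_eq_one_comm.mp h1
  have h3 := congrFun (congrFun h2 b') b
  rw [Matrix.mul_apply] at h3
  simp only [conjTranspose_apply, Matrix.one_apply] at h3
  rw [show ∑ a, V a b * star (V a b') = ∑ a, star (V a b') * V a b from
    Finset.sum_congr rfl fun a _ => mul_comm _ _, h3]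
  unfold dl
  by_cases hb : b = b'
  · simp [hb]
  · simp [hb, Ne.symm hb]

theorem Q611.gsum (h : Q611 V be) : ∑ c, gam V be c = s6 := by
  unfold gam
  rw [Finset.sum_comm]
  have h1 : ∀ a, ∑ c, star (V a c) * be a = be a := fun a => by
    rw [← Finset.sum_mul, ← star_sum, h.flat.rsum, star_one, one_mul]
  simp only [h1, h.bsum]

/-- the inverse transformation. -/
theorem Q611.back (h : Q611 V be) (a : Fin 6) : ∑ c, V a c * gam V be c = be a := by
  unfold gam
  have h1 : ∀ c, V a c * ∑ a', star (V a' c) * be a' = ∑ a', (V a c * star (V a' c)) * be a' :=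
    fun c => by
      rw [Finset.mul_sum]
      exact Finset.sum_congr rfl fun a' _ => by ring
  simp only [h1]
  rw [Finset.sum_comm]
  have h2 : ∀ a', ∑ c, (V a c * star (V a' c)) * be a' = dl a a' * be a' := fun a' => by
    rw [← Finset.sum_mul, h.flat.rows]
  simp only [h2]
  simp [dl]

theorem Q611.ext (h : Q611 V be) : H138.Ext (xx V be) := by
  have e1 : ∀ a c, (H138.s6 * V a c) * star (H138.s6 * V a c) = 1 := fun a c => by
    rw [star_mul', H138.star_s6]
    have := h.flat.flat a c
    linear_combination H138.s6_sq * (star (V a c) * V a c) + 6 * this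
  refine { unit := ?_, rowsum := ?_, colsum := ?_, orow := ?_, ocol := ?_, mrowsum := ?_,
           mcolsum := ?_, mrow := ?_, mcol := ?_ }
  · intro r c
    refine Fin.lastCases ?_ (fun a => ?_) r <;> refine Fin.lastCases ?_ (fun c' => ?_) c
    · show xx V be 6 6 * star (xx V be 6 6) = 1
      rw [xx_66]; simp
    · show xx V be 6 c'.castSucc * star (xx V be 6 c'.castSucc) = 1
      rw [xx_c, star_star]; exact h.gflat c'
    · show xx V be a.castSucc 6 * star (xx V be a.castSucc 6) = 1
      rw [xx_a]; exact h.be_unit a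
    · rw [xx_ac]; exact e1 a c'
  · intro a
    simp only [xx_ac, ← Finset.mul_sum, h.flat.rsum, mul_one]
  · intro b
    simp only [xx_ac, ← Finset.mul_sum, h.flat.csum, mul_one]
  · intro a a'
    simp only [xx_ac, star_mul', H138.star_s6]
    have h1 : ∀ b, H138.s6 * V a b * (H138.s6 * star (V a' b)) = 6 * (V a b * star (V a' b)) :=
      fun b => by linear_combination H138.s6_sq * (V a b * star (V a' b))
    simp only [h1, ← Finset.mul_sum, h.flat.rows]
    unfold dl
    split_ifs <;> simp
  · intro a a'
    simp only [xx_ac, star_mul', H138.star_s6]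
    have h1 : ∀ b, H138.s6 * V b a * (H138.s6 * star (V b a')) = 6 * (V b a * star (V b a')) :=
      fun b => by linear_combination H138.s6_sq * (V b a * star (V b a'))
    simp only [h1, ← Finset.mul_sum, h.flat.cols]
    unfold dl
    split_ifs <;> simp
  · simp only [xx_c, ← star_sum, h.gsum, star_s6, s6_eq]
  · simp only [xx_a, h.bsum, s6_eq]
  · intro a
    simp only [xx_ac, xx_c, xx_a, star_star, mul_assoc, ← Finset.mul_sum, h.back]
  · intro c
    simp only [xx_ac, xx_c, xx_a, mul_assoc, ← Finset.mul_sum]
    congr 1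
    unfold gam
    rw [star_sum]
    exact Finset.sum_congr rfl fun a _ => by rw [star_mul', star_star]

end xx

/-! ### The exchange of the two full bases -/

section swap
variable {V : M6} {be : Fin 6 → ℂ}

theorem xx_swapAC (h : Q611 V be) (r c : Fin 7) : xx Vᴴ (gam V be) r c = star (xx V be c r) := by
  refine Fin.lastCases ?_ (fun a => ?_) r <;> refine Fin.lastCases ?_ (fun c' => ?_) c
  · show xx Vᴴ (gam V be) 6 6 = star (xx V be 6 6)
    rw [xx_66, xx_66, star_one]
  · show xx Vᴴ (gam V be) 6 c'.castSucc = star (xx V be c'.castSucc 6)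
    rw [xx_c, xx_a]
    congr 1
    rw [← h.back c']
    unfold gam
    exact Finset.sum_congr rfl fun a _ => by rw [conjTranspose_apply, star_star]
  · show xx Vᴴ (gam V be) a.castSucc 6 = star (xx V be 6 a.castSucc)
    rw [xx_a, xx_c, star_star]
  · rw [xx_ac, xx_ac, star_mul', H138.star_s6, conjTranspose_apply]

theorem xx_swapBD_ac (a c : Fin 6) : xx (Vsw V be) (fun a => star (be a)) a.castSucc c.castSucc
    = xx V be a.castSucc c.castSucc * star (xx V be a.castSucc 6) * star (xx V be 6 c.castSucc) := by
  rw [xx_ac, xx_ac, xx_a, xx_c, star_star]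
  unfold Vsw
  rw [Matrix.of_apply]; ring

theorem gam_Vsw (h : Q611 V be) (c : Fin 6) :
    gam (Vsw V be) (fun a => star (be a)) c = star (gam V be c) := by
  unfold Vsw
  have h1 : ∀ a, star ((Matrix.of fun a c => star (be a) * V a c * gam V be c : M6) a c)
      * star (be a) = star (V a c) * star (gam V be c) := fun a => by
    rw [Matrix.of_apply, star_mul', star_mul', star_star]
    linear_combination (star (V a c) * star (gam V be c)) * h.be_unit a
  show ∑ a, star ((Matrix.of fun a c => star (be a) * V a c * gam V be c : M6) a c)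
      * star (be a) = _
  simp only [h1, ← Finset.sum_mul, ← star_sum, h.flat.csum, star_one, one_mul]

theorem xx_swapBD_a (a : Fin 6) : xx (Vsw V be) (fun a => star (be a)) a.castSucc 6
    = star (xx V be a.castSucc 6) := by
  rw [xx_a, xx_a]

theorem xx_swapBD_c (h : Q611 V be) (c : Fin 6) :
    xx (Vsw V be) (fun a => star (be a)) 6 c.castSucc = star (xx V be 6 c.castSucc) := by
  rw [xx_c, xx_c, gam_Vsw h, star_star]

end swap

end Vale.Agent.P355.H349
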