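import Vale.Agent.P355.H349.Bridge

/-! The expectation over all configurations of a quadruple of mutually unbiased bases, and its
rules for graph functions: contraction at the single vertices and exchange of the roles. -/

namespace Vale.Agent.P355.H349

open Finset Matrix Vale.Agent.P355 H138

set_option linter.unusedSectionVars false

/-- what is used about a configuration: all formal relations, and (N7) for the rows and for the
columns. -/
structure Conf (x : Fin 7 → Fin 7 → ℂ) : Prop extends Ext x where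
  x66 : x 6 6 = 1
  n7r : ∀ e : Equiv.Perm (Fin 6), ∑ c : Fin 6,
    x (e 0).castSucc c.castSucc * x (e 1).castSucc c.castSucc * x (e 2).castSucc c.castSucc *
    (star (x (e 3).castSucc c.castSucc) * star (x (e 4).castSucc c.castSucc) *
      star (x (e 5).castSucc c.castSucc)) = 0
  n7c : ∀ e : Equiv.Perm (Fin 6), ∑ a : Fin 6,
    x a.castSucc (e 0).castSucc * x a.castSucc (e 1).castSucc * x a.castSucc (e 2).castSucc *
    (star (x a.castSucc (e 3).castSucc) * star (x a.castSucc (e 4).castSucc) *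
      star (x a.castSucc (e 5).castSucc)) = 0

theorem Q4.conf {V : M6} {be : Fin 6 → ℂ} (h : Q4 V be) : Conf (xx V be) := by
  refine { toExt := h.toQ611.ext, x66 := xx_66, n7r := fun e => ?_, n7c := fun e => ?_ }
  · simp only [xx_ac]
    have h1 : ∀ c, H138.s6 * V (e 0) c * (H138.s6 * V (e 1) c) * (H138.s6 * V (e 2) c) *
        (star (H138.s6 * V (e 3) c) * star (H138.s6 * V (e 4) c) * star (H138.s6 * V (e 5) c))
        = 216 * (V (e 0) c * V (e 1) c * V (e 2) c *
          (star (V (e 3) c) * star (V (e 4) c) * star (V (e 5) c))) := by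
      intro c
      simp only [star_mul', H138.star_s6]
      have h6 := H138.s6_sq
      set s := H138.s6
      linear_combination (V (e 0) c * V (e 1) c * V (e 2) c *
          (star (V (e 3) c) * star (V (e 4) c) * star (V (e 5) c))) *
          (s ^ 4 + 6 * s ^ 2 + 36) * h6
    simp only [h1, ← Finset.mul_sum, h.n7 e, mul_zero]
  · simp only [xx_ac]
    have h0 := congrArg star (h.n7H e)
    simp only [conjTranspose_apply, star_star, star_sum, star_mul', star_zero] at h0
    have h1 : ∀ c, H138.s6 * V c (e 0) * (H138.s6 * V c (e 1)) * (H138.s6 * V c (e 2)) *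
        (star (H138.s6 * V c (e 3)) * star (H138.s6 * V c (e 4)) * star (H138.s6 * V c (e 5)))
        = 216 * (V c (e 0) * V c (e 1) * V c (e 2) *
          (star (V c (e 3)) * star (V c (e 4)) * star (V c (e 5)))) := by
      intro c
      simp only [star_mul', H138.star_s6]
      have h6 := H138.s6_sq
      set s := H138.s6
      linear_combination (V c (e 0) * V c (e 1) * V c (e 2) *
          (star (V c (e 3)) * star (V c (e 4)) * star (V c (e 5)))) *
          (s ^ 4 + 6 * s ^ 2 + 36) * h6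
    simp only [h1, ← Finset.mul_sum, h0, mul_zero]

/-- the expectation over all configurations of a quadruple. -/
noncomputable def Ev (B : Fin 4 → M6) (f : (Fin 7 → Fin 7 → ℂ) → ℝ) : ℝ :=
  (1 / 864) * ∑ π : Equiv.Perm (Fin 4), S4 (fun V be => f (xx V be)) (fun i => B (π i))

section Ev
variable {B : Fin 4 → M6} {f g : (Fin 7 → Fin 7 → ℂ) → ℝ}

theorem Ev_add : Ev B (fun x => f x + g x) = Ev B f + Ev B g := by
  unfold Ev S4
  simp only [Finset.sum_add_distrib, mul_add]

theorem Ev_smul (r : ℝ) : Ev B (fun x => r * f x) = r * Ev B f := by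
  unfold Ev S4
  simp only [← Finset.mul_sum]
  ring

theorem Ev_const (r : ℝ) : Ev B (fun _ => r) = r := by
  unfold Ev S4
  have : Fintype.card (Equiv.Perm (Fin 4)) = 24 := by
    rw [Fintype.card_perm, Fintype.card_fin]; rfl
  simp only [Finset.sum_const, Finset.card_univ, this, Fintype.card_fin, nsmul_eq_mul]
  push_cast
  ring

theorem Ev_sum {ι : Type*} (s : Finset ι) (F : ι → (Fin 7 → Fin 7 → ℂ) → ℝ) :
    Ev B (fun x => ∑ i ∈ s, F i x) = ∑ i ∈ s, Ev B (F i) := by
  classical
  induction s using Finset.induction_on with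
  | empty => simpa using Ev_const (B := B) 0
  | insert i s hi ih => simp only [Finset.sum_insert hi, Ev_add, ih]

theorem Ev_list {α : Type*} (l : List α) (F : α → (Fin 7 → Fin 7 → ℂ) → ℝ) :
    Ev B (fun x => (l.map fun t => F t x).sum) = (l.map fun t => Ev B (F t)).sum := by
  induction l with
  | nil => simpa using Ev_const (B := B) 0
  | cons t l ih => simp only [List.map_cons, List.sum_cons, Ev_add, ih]

theorem Ev_congr (hB : IsMUBs B) (h : ∀ x, Conf x → f x = g x) : Ev B f = Ev B g := by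
  unfold Ev S4
  congr 1
  exact Finset.sum_congr rfl fun π _ => Finset.sum_congr rfl fun k _ =>
    Finset.sum_congr rfl fun l _ => h _ (q4_of (mubs_perm hB π) k l).conf

theorem Ev_nonneg (hB : IsMUBs B) (h : ∀ x, Conf x → 0 ≤ f x) : 0 ≤ Ev B f := by
  unfold Ev S4
  refine mul_nonneg (by norm_num) ?_
  exact Finset.sum_nonneg fun π _ => Finset.sum_nonneg fun k _ =>
    Finset.sum_nonneg fun l _ => h _ (q4_of (mubs_perm hB π) k l).conf

theorem Ev_sub : Ev B (fun x => f x - g x) = Ev B f - Ev B g := by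
  have h : (fun x => f x - g x) = fun x => f x + (-1) * g x := by funext x; ring
  rw [h, Ev_add, Ev_smul]; ring

theorem Ev_mono (hB : IsMUBs B) (h : ∀ x, Conf x → f x ≤ g x) : Ev B f ≤ Ev B g := by
  have := Ev_nonneg (f := fun x => g x - f x) hB fun x hx => sub_nonneg.2 (h x hx)
  rw [Ev_sub] at this
  linarith

theorem Ev_abs_le (hB : IsMUBs B) {C : ℝ} (h : ∀ x, Conf x → |f x| ≤ C) : |Ev B f| ≤ C := by
  rw [abs_le]
  constructor
  · have := Ev_mono (f := fun _ => -C) (g := f) hB fun x hx => (abs_le.1 (h x hx)).1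
    rwa [Ev_const] at this
  · have := Ev_mono (f := f) (g := fun _ => C) hB fun x hx => (abs_le.1 (h x hx)).2
    rwa [Ev_const] at this

theorem Ev_of_meanZero (hB : IsMUBs B)
    (h : MeanZero fun V be => f (xx V be) - g (xx V be)) : Ev B f = Ev B g := by
  rw [← sub_eq_zero, ← Ev_sub]
  unfold Ev
  rw [h B hB, mul_zero]

end Ev

variable {P Q : Type} [Fintype P] [Fintype Q] [DecidableEq P] [DecidableEq Q]
variable {B : Fin 4 → M6}

/-- the expectation of a graph. -/
noncomputable def Y (B : Fin 4 → M6) (n : Option P → Option Q → ℤ) : ℝ :=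
  Ev B fun x => (gv x n).re

/-! ### Exchange of the full bases -/

theorem gv_star (x : Fin 7 → Fin 7 → ℂ) (n : Option P → Option Q → ℤ) :
    gv (fun r c => star (x r c)) n = star (gv x n) := by
  unfold gv mon
  simp only [star_mul', star_pow, star_sum, star_prod, star_zpow₀]
  simp

theorem Ev_transpose (hB : IsMUBs B) (n : Option P → Option Q → ℤ) :
    Ev B (fun x => (gv (fun r c => x c r) n).re) = Y B n := by
  unfold Y
  symm
  refine Ev_of_meanZero hB ?_
  refine (MeanZero.diffAC fun V be => (gv (xx V be) n).re).congr' fun V be h => ?_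
  have h1 : xx Vᴴ (gam V be) = fun r c => star (xx V be c r) := by
    funext r c; exact xx_swapAC h r c
  rw [h1, gv_star (fun r c => xx V be c r) n]
  simp

/-- the expectation of the symmetrised value. -/
theorem Ev_rv (hB : IsMUBs B) (b : Bool) (n : Option P → Option Q → ℤ) :
    Ev B (fun x => rv x b n) = pw6 b * Y B n := by
  unfold rv
  rw [Ev_smul]
  congr 1
  have h : (fun x : Fin 7 → Fin 7 → ℂ => ((gv x n).re + (gv (fun r c => x c r) n).re) / 2)
      = fun x => (1 / 2) * ((gv x n).re + (gv (fun r c => x c r) n).re) := by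
    funext x; ring
  rw [h, Ev_smul, Ev_add, Ev_transpose hB]
  unfold Y
  ring

/-! ### Exchange of the single bases -/

/-- exponents after the exchange of the third and the fourth basis. -/
def bdn (n : Option P → Option Q → ℤ) : Option P → Option Q → ℤ
  | none, none => 0
  | some p, none => - n (some p) none - ∑ q, n (some p) (some q)
  | none, some q => - n none (some q) - ∑ p, n (some p) (some q)
  | some p, some q => n (some p) (some q)

theorem prod_zpow_sum {ι : Type*} {x : ℂ} (hx : x ≠ 0) (s : Finset ι) (f : ι → ℤ) :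
    ∏ i ∈ s, x ^ f i = x ^ ∑ i ∈ s, f i := by
  classical
  induction s using Finset.induction_on with
  | empty => simp
  | insert i s hi ih => rw [Finset.prod_insert hi, Finset.sum_insert hi, zpow_add₀ hx, ih]

theorem mon_bd (x x' : Fin 7 → Fin 7 → ℂ) (hx : ∀ r c, x r c ≠ 0) (h66 : x' 6 6 = 1)
    (hac : ∀ a c : Fin 6, x' a.castSucc c.castSucc
      = x a.castSucc c.castSucc * (x a.castSucc 6)⁻¹ * (x 6 c.castSucc)⁻¹)
    (ha : ∀ a : Fin 6, x' a.castSucc 6 = (x a.castSucc 6)⁻¹)
    (hc : ∀ c : Fin 6, x' 6 c.castSucc = (x 6 c.castSucc)⁻¹)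
    (n : Option P → Option Q → ℤ) (φ : P → Fin 6) (ψ : Q → Fin 6) :
    mon x' n φ ψ = mon x (bdn n) φ ψ := by
  unfold mon
  simp only [Fintype.prod_option, ex_none, ex_some, bdn, h66, one_zpow, zpow_zero, hac, ha, hc,
    mul_zpow, inv_zpow', Finset.prod_mul_distrib, one_mul]
  have e1 : ∏ p, ∏ q, x (φ p).castSucc 6 ^ (-n (some p) (some q))
      = ∏ p, x (φ p).castSucc 6 ^ (-∑ q, n (some p) (some q)) :=
    Finset.prod_congr rfl fun p _ => by
      rw [← Finset.sum_neg_distrib, prod_zpow_sum (hx _ _)]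
  have e2 : ∏ p, ∏ q, x 6 (ψ q).castSucc ^ (-n (some p) (some q))
      = ∏ q, x 6 (ψ q).castSucc ^ (-∑ p, n (some p) (some q)) := by
    rw [Finset.prod_comm]
    exact Finset.prod_congr rfl fun q _ => by
      rw [← Finset.sum_neg_distrib, prod_zpow_sum (hx _ _)]
  rw [e1, e2]
  simp only [sub_eq_add_neg, zpow_add₀ (hx _ _), Finset.prod_mul_distrib]
  ring

theorem Conf.star_eq {x : Fin 7 → Fin 7 → ℂ} (h : Base x) (r c : Fin 7) :
    star (x r c) = (x r c)⁻¹ := (h.inv r c).symm

theorem gv_congr_mon {x x' : Fin 7 → Fin 7 → ℂ} {n n' : Option P → Option Q → ℤ}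
    (h : ∀ φ ψ, mon x n φ ψ = mon x' n' φ ψ) : gv x n = gv x' n' := by
  unfold gv; simp only [h]

theorem gv_bd {V : M6} {be : Fin 6 → ℂ} (hQ : Q611 V be) (n : Option P → Option Q → ℤ) :
    gv (xx (Vsw V be) (fun a => star (be a))) n = gv (xx V be) (bdn n) := by
  have hx := hQ.ext.toBase
  refine gv_congr_mon fun φ ψ => ?_
  refine mon_bd (xx V be) (xx (Vsw V be) (fun a => star (be a))) hx.ne xx_66 (fun a c => ?_)
    (fun a => ?_) (fun c => ?_) n φ ψ
  · rw [xx_swapBD_ac, hx.inv, hx.inv]
  · rw [xx_swapBD_a, hx.inv]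
  · rw [xx_swapBD_c hQ, hx.inv]

/-- exchange of the third and the fourth basis. -/
theorem Y_bd (hB : IsMUBs B) (n : Option P → Option Q → ℤ) : Y B (bdn n) = Y B n := by
  unfold Y
  symm
  refine Ev_of_meanZero hB ?_
  refine (MeanZero.diffBD fun V be => (gv (xx V be) n).re).congr' fun V be hQ => ?_
  rw [gv_bd hQ]

/-! ### Exchange of the first and the third basis, for graphs with one row vertex -/

/-- exponents after the exchange. -/
def exn (n : Option Unit → Option Q → ℤ) : Option Unit → Option Q → ℤ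
  | none, none => 0
  | none, some q => n none (some q)
  | some _, none => - n (some ()) none + ∑ q, n none (some q)
  | some _, some q => - n (some ()) (some q) - n none (some q)

/-- the function of a triple of vectors and a basis given by a graph with one row vertex. -/
noncomputable def psi (n : Option Unit → Option Q → ℤ) (v g : Fin 6 → ℂ) (β : ℂ) : ℝ :=
  ((6⁻¹ : ℂ) ^ (1 + Fintype.card Q) * ∑ ψ : Q → Fin 6,
    (β ^ n (some ()) none * ((∏ q, (H138.s6 * v (ψ q)) ^ n (some ()) (some q)) *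
      ∏ q, star (g (ψ q)) ^ n none (some q)))).re

theorem gv_psi (V : M6) (be : Fin 6 → ℂ) (n : Option Unit → Option Q → ℤ) :
    (gv (xx V be) n).re = triF (psi n) V be := by
  unfold gv triF psi
  rw [← Complex.re_sum, ← Finset.mul_sum, Fintype.card_unit]
  refine congrArg Complex.re (congrArg _ ?_)
  refine Fintype.sum_equiv (Equiv.funUnique Unit (Fin 6)) _ _ fun φ => ?_
  refine Finset.sum_congr rfl fun ψ _ => ?_
  unfold mon
  simp only [Fintype.prod_option, ex_none, ex_some, xx_66, one_zpow, one_mul, xx_ac, xx_a, xx_c,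
    Finset.univ_unique, Finset.prod_singleton, Equiv.funUnique_apply]
  rw [show (default : Unit) = () from rfl]
  ring

theorem gv_exn {V : M6} {be : Fin 6 → ℂ} (hQ : Q611 V be) (n : Option Unit → Option Q → ℤ) :
    triG (psi n) V be = (gv (xx V be) (exn n)).re := by
  have hx := hQ.ext.toBase
  rw [gv_psi]
  unfold triG triF psi
  refine Finset.sum_congr rfl fun a _ => ?_
  congr 2
  refine Finset.sum_congr rfl fun ψ _ => ?_
  have hb : be a ≠ 0 := by have := hx.ne a.castSucc 6; rwa [xx_a] at this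
  have hbs : star (be a) = (be a)⁻¹ := by
    have := hx.inv a.castSucc 6; rw [xx_a] at this; exact this.symm
  have hg : ∀ c, star (gam V be c) ≠ 0 := fun c => by
    have := hx.ne 6 c.castSucc; rwa [xx_c] at this
  have hgs : ∀ c, gam V be c = (star (gam V be c))⁻¹ := fun c => by
    have := hx.inv 6 c.castSucc; rw [xx_c, star_star] at this; exact this.symm
  have hV : ∀ c, H138.s6 * V a c ≠ 0 := fun c => by
    have := hx.ne a.castSucc c.castSucc; rwa [xx_ac] at this
  have hVs : ∀ c, H138.s6 * star (V a c) = (H138.s6 * V a c)⁻¹ := fun c => by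
    have := hx.inv a.castSucc c.castSucc
    rw [xx_ac, star_mul', H138.star_s6] at this; exact this.symm
  have e1 : ∀ c, star (s6 * V a c * gam V be c * star (be a))
      = (H138.s6 * V a c)⁻¹ * star (gam V be c) * be a := fun c => by
    rw [star_mul', star_mul', star_mul', star_star, star_s6, ← s6_eq, hVs]
  simp only [e1]
  simp only [hVs, hbs, exn]
  have e2 : ∀ c : Fin 6, ((H138.s6 * V a c)⁻¹ * star (gam V be c) * be a)
      = (H138.s6 * V a c)⁻¹ * (star (gam V be c) * be a) := fun c => by ring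
  have k1 : ∏ q, ((H138.s6 * V a (ψ q))⁻¹) ^ n (some ()) (some q)
      = ∏ q, (H138.s6 * V a (ψ q)) ^ (-n (some ()) (some q)) :=
    Finset.prod_congr rfl fun q _ => by rw [inv_zpow']
  have k2 : ∏ q, ((H138.s6 * V a (ψ q))⁻¹ * star (gam V be (ψ q)) * be a) ^ n none (some q)
      = (∏ q, (H138.s6 * V a (ψ q)) ^ (-n none (some q))) *
        ((∏ q, star (gam V be (ψ q)) ^ n none (some q)) * ∏ q, be a ^ n none (some q)) := by
    rw [← Finset.prod_mul_distrib, ← Finset.prod_mul_distrib]
    exact Finset.prod_congr rfl fun q _ => by rw [mul_zpow, mul_zpow, inv_zpow', mul_assoc]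
  have k3 : ∏ q, (H138.s6 * V a (ψ q)) ^ (-n (some ()) (some q) - n none (some q))
      = (∏ q, (H138.s6 * V a (ψ q)) ^ (-n (some ()) (some q))) *
        ∏ q, (H138.s6 * V a (ψ q)) ^ (-n none (some q)) := by
    rw [← Finset.prod_mul_distrib]
    exact Finset.prod_congr rfl fun q _ => by rw [sub_eq_add_neg, zpow_add₀ (hV _)]
  rw [k1, k2, k3, prod_zpow_sum hb, inv_zpow', zpow_add₀ hb]
  ring

/-- exchange of the first and the third basis. -/
theorem Y_ex (hB : IsMUBs B) (n : Option Unit → Option Q → ℤ) : Y B (exn n) = Y B n := by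
  unfold Y
  symm
  refine Ev_of_meanZero hB ?_
  refine (MeanZero.exchange (psi n)).congr' fun V be hQ => ?_
  rw [gv_exn hQ, gv_psi]

/-! ### Contraction at the fourth basis -/

/-- value of the part of a monomial without marks. -/
noncomputable def monV (V : M6) (n : Option P → Option Q → ℤ) (φ : P → Fin 6) (ψ : Q → Fin 6) : ℂ :=
  ∏ p, ∏ q, (H138.s6 * V (φ p) (ψ q)) ^ n (some p) (some q)

theorem mon_xx (V : M6) (be : Fin 6 → ℂ) (n : Option P → Option Q → ℤ) (φ : P → Fin 6)
    (ψ : Q → Fin 6) : mon (xx V be) n φ ψ = monV V n φ ψ *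
      ((∏ p, be (φ p) ^ n (some p) none) * ∏ q, star (gam V be (ψ q)) ^ n none (some q)) := by
  unfold mon monV
  simp only [Fintype.prod_option, ex_none, ex_some, xx_66, one_zpow, one_mul, xx_ac, xx_a, xx_c,
    Finset.prod_mul_distrib]
  ring

/-- criterion for two graphs to have the same expectation up to a factor. -/
theorem Y_mean (hB : IsMUBs B) (n n' : Option P → Option Q → ℤ) (κ : ℝ)
    (h : ∀ B : Fin 4 → M6, IsMUBs B → ∀ k,
      ∑ l, gv (xx (V4 B k) (be4 B k l)) n = κ * ∑ l, gv (xx (V4 B k) (be4 B k l)) n') :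
    Y B n = κ * Y B n' := by
  unfold Y
  rw [← Ev_smul]
  refine Ev_of_meanZero hB ?_
  refine (MeanZero.of_sum (fun V be => gv (xx V be) n - κ * gv (xx V be) n') ?_).congr' ?_
  · intro B hB k
    rw [Finset.sum_sub_distrib, ← Finset.mul_sum, h B hB k, sub_self]
  · intro V be _
    simp only [Complex.sub_re, Complex.re_ofReal_mul]

section marks

theorem be4_unit (hB : IsMUBs B) (k l a : Fin 6) : be4 B k l a * star (be4 B k l a) = 1 :=
  (q611_of hB k l).be_unit a

theorem ga4_unit (hB : IsMUBs B) (k l c : Fin 6) : ga4 B k l c * star (ga4 B k l c) = 1 := by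
  rw [← gam4 hB]; exact (q611_of hB k l).ga_unit c

theorem V4_unit (hB : IsMUBs B) (k a c : Fin 6) :
    (H138.s6 * V4 B k a c) * star (H138.s6 * V4 B k a c) = 1 := by
  have := (q611_of hB k 0).ext.unit a.castSucc c.castSucc
  rwa [xx_ac] at this

theorem inv_of_unit {z : ℂ} (h : z * star z = 1) : z⁻¹ = star z := by
  rw [inv_eq_of_mul_eq_one_right h]

theorem sum_mark_ac (hB : IsMUBs B) (k a c : Fin 6) (ε : ℤ) (hε : ε = 1 ∨ ε = -1) :
    ∑ l, be4 B k l a ^ ε * star (ga4 B k l c) ^ ε
      = 6 * ((s6 / 6) * (H138.s6 * V4 B k a c) ^ ε) := by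
  have h6 := s6_sq
  rcases hε with rfl | rfl
  · simp only [zpow_one, sum_ac hB, s6_eq]
    linear_combination (-V4 B k a c) * h6
  · simp only [zpow_neg_one]
    have h1 : ∀ l, (be4 B k l a)⁻¹ * (star (ga4 B k l c))⁻¹
        = star (be4 B k l a * star (ga4 B k l c)) := fun l => by
      rw [star_mul', star_star, inv_of_unit (be4_unit hB k l a),
        inv_of_unit (z := star (ga4 B k l c)) (by rw [star_star, mul_comm]; exact ga4_unit hB k l c),
        star_star]
    have h2 : (H138.s6 * V4 B k a c)⁻¹ = s6 * star (V4 B k a c) := by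
      rw [inv_of_unit (V4_unit hB k a c), star_mul', s6_eq, star_s6]
    simp only [h1]
    rw [← star_sum, sum_ac hB, h2, star_mul', show star (6 : ℂ) = 6 by simp]
    linear_combination (-star (V4 B k a c)) * h6

theorem sum_mark_a (hB : IsMUBs B) (k a : Fin 6) (ε : ℤ) (hε : ε = 1 ∨ ε = -1) :
    ∑ l, be4 B k l a ^ ε = 6 * (s6 / 6) := by
  rcases hε with rfl | rfl
  · simp only [zpow_one, sum_a hB]; ring
  · simp only [zpow_neg_one]
    have h1 : ∀ l, (be4 B k l a)⁻¹ = star (be4 B k l a) := fun l => inv_of_unit (be4_unit hB k l a)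
    simp only [h1, ← star_sum, sum_a hB, star_s6]; ring

theorem sum_mark_aa (hB : IsMUBs B) (k a a' : Fin 6) :
    ∑ l, be4 B k l a ^ (1 : ℤ) * be4 B k l a' ^ (-1 : ℤ) = if a = a' then 6 else 0 := by
  simp only [zpow_one, zpow_neg_one]
  have h1 : ∀ l, (be4 B k l a')⁻¹ = star (be4 B k l a') := fun l => inv_of_unit (be4_unit hB k l a')
  simp only [h1, sum_aa hB]
  unfold dl
  split_ifs <;> simp

end marks

/-- remove the marks. -/
def zmk (n : Option P → Option Q → ℤ) : Option P → Option Q → ℤ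
  | some p, some q => n (some p) (some q)
  | _, _ => 0

/-- remove the marks and add `ε` at `(p0, q0)`. -/
def acn (n : Option P → Option Q → ℤ) (p0 : P) (q0 : Q) (ε : ℤ) : Option P → Option Q → ℤ
  | some p, some q => n (some p) (some q) + if p = p0 ∧ q = q0 then ε else 0
  | _, _ => 0

theorem sum_gv_xx (k : Fin 6) (n : Option P → Option Q → ℤ) (R : (P → Fin 6) → (Q → Fin 6) → ℂ)
    (h : ∀ φ ψ, ∑ l, ((∏ p, be4 B k l (φ p) ^ n (some p) none) *
      ∏ q, star (gam (V4 B k) (be4 B k l) (ψ q)) ^ n none (some q)) = R φ ψ) :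
    ∑ l, gv (xx (V4 B k) (be4 B k l)) n = (6⁻¹ : ℂ) ^ (Fintype.card P + Fintype.card Q) *
      ∑ φ : P → Fin 6, ∑ ψ : Q → Fin 6, monV (V4 B k) n φ ψ * R φ ψ := by
  unfold gv
  rw [← Finset.mul_sum]
  congr 1
  rw [Finset.sum_comm]
  refine Finset.sum_congr rfl fun φ _ => ?_
  rw [Finset.sum_comm]
  refine Finset.sum_congr rfl fun ψ _ => ?_
  simp only [mon_xx, ← Finset.mul_sum, h]

theorem monV_zmk (V : M6) (n : Option P → Option Q → ℤ) (φ : P → Fin 6) (ψ : Q → Fin 6) :
    monV V (zmk n) φ ψ = monV V n φ ψ := rfl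

theorem monV_acn (V : M6) (n : Option P → Option Q → ℤ) (p0 : P) (q0 : Q) (ε : ℤ)
    (φ : P → Fin 6) (ψ : Q → Fin 6) (h : ∀ a c, H138.s6 * V a c ≠ 0) :
    monV V (acn n p0 q0 ε) φ ψ = monV V n φ ψ * (H138.s6 * V (φ p0) (ψ q0)) ^ ε := by
  unfold monV acn
  simp only [zpow_add₀ (h _ _), Finset.prod_mul_distrib]
  congr 1
  rw [Finset.prod_eq_single p0, Finset.prod_eq_single q0]
  · simp
  · intro q _ hq; simp [hq]
  · simp
  · intro p _ hp; simp [hp]
  · simp

/-- graphs without marks do not depend on the vector of the fourth basis. -/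
theorem sum_gv_nomark (k : Fin 6) (n : Option P → Option Q → ℤ)
    (h1 : ∀ p, n (some p) none = 0) (h2 : ∀ q, n none (some q) = 0) :
    ∑ l, gv (xx (V4 B k) (be4 B k l)) n = (6⁻¹ : ℂ) ^ (Fintype.card P + Fintype.card Q) *
      ∑ φ : P → Fin 6, ∑ ψ : Q → Fin 6, monV (V4 B k) n φ ψ * 6 := by
  refine sum_gv_xx k n (fun _ _ => 6) fun φ ψ => ?_
  simp [h1, h2]

theorem ne_of_unit {z : ℂ} (h : z * star z = 1) : z ≠ 0 := fun h0 => by simp [h0] at h

theorem prod_single {ι : Type*} [Fintype ι] [DecidableEq ι] (z : ι → ℂ) (m : ι → ℤ) (i0 : ι)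
    (h : ∀ i, i ≠ i0 → m i = 0) : ∏ i, z i ^ m i = z i0 ^ m i0 :=
  Fintype.prod_eq_single i0 fun i hi => by rw [h i hi, zpow_zero]

theorem r6_s6 : ((r6 / 6 : ℝ) : ℂ) = s6 / 6 := by
  unfold r6 s6; push_cast; rfl

/-- (ac) contraction of the fourth vertex between a row and a column. -/
theorem Y_ac (hB : IsMUBs B) (n : Option P → Option Q → ℤ) (p0 : P) (q0 : Q) (ε : ℤ)
    (hε : ε = 1 ∨ ε = -1) (h1 : n (some p0) none = ε) (h2 : n none (some q0) = ε)
    (h3 : ∀ p, p ≠ p0 → n (some p) none = 0) (h4 : ∀ q, q ≠ q0 → n none (some q) = 0) :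
    Y B n = (r6 / 6) * Y B (acn n p0 q0 ε) := by
  refine Y_mean hB _ _ _ fun B hB k => ?_
  rw [sum_gv_xx k n (fun φ ψ => 6 * ((s6 / 6) * (H138.s6 * V4 B k (φ p0) (ψ q0)) ^ ε)) ?_,
    sum_gv_nomark k (acn n p0 q0 ε) (fun _ => rfl) (fun _ => rfl), r6_s6, mul_left_comm]
  · congr 1
    rw [Finset.mul_sum]
    refine Finset.sum_congr rfl fun φ _ => ?_
    rw [Finset.mul_sum]
    refine Finset.sum_congr rfl fun ψ _ => ?_
    rw [monV_acn _ _ _ _ _ _ _ fun a c => ne_of_unit (V4_unit hB k a c)]
    ring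
  · intro φ ψ
    rw [← sum_mark_ac hB k (φ p0) (ψ q0) ε hε]
    refine Finset.sum_congr rfl fun l _ => ?_
    rw [prod_single (fun p => be4 B k l (φ p)) (fun p => n (some p) none) p0 h3,
      prod_single (fun q => star (gam (V4 B k) (be4 B k l) (ψ q))) (fun q => n none (some q)) q0 h4,
      h1, h2, gam4 hB]

/-- (a) contraction of the fourth vertex between a row and the third vertex. -/
theorem Y_a (hB : IsMUBs B) (n : Option P → Option Q → ℤ) (p0 : P) (ε : ℤ)
    (hε : ε = 1 ∨ ε = -1) (h1 : n (some p0) none = ε)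
    (h3 : ∀ p, p ≠ p0 → n (some p) none = 0) (h4 : ∀ q, n none (some q) = 0) :
    Y B n = (r6 / 6) * Y B (zmk n) := by
  refine Y_mean hB _ _ _ fun B hB k => ?_
  rw [sum_gv_xx k n (fun φ ψ => 6 * (s6 / 6)) ?_,
    sum_gv_nomark k (zmk n) (fun _ => rfl) (fun _ => rfl), r6_s6, mul_left_comm]
  · congr 1
    rw [Finset.mul_sum]
    refine Finset.sum_congr rfl fun φ _ => ?_
    rw [Finset.mul_sum]
    refine Finset.sum_congr rfl fun ψ _ => ?_
    rw [monV_zmk]
    ring
  · intro φ ψ
    rw [← sum_mark_a hB k (φ p0) ε hε]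
    refine Finset.sum_congr rfl fun l _ => ?_
    rw [prod_single (fun p => be4 B k l (φ p)) (fun p => n (some p) none) p0 h3, h1]
    simp [h4]

/-- (aa) contraction of the fourth vertex between two rows. -/
theorem Y_aa (hB : IsMUBs B) (n : Option P → Option Q → ℤ) (p0 p1 : P) (h01 : p0 ≠ p1)
    (h1 : n (some p0) none = 1) (h2 : n (some p1) none = -1)
    (h3 : ∀ p, p ≠ p0 → p ≠ p1 → n (some p) none = 0) (h4 : ∀ q, n none (some q) = 0) :
    Y B n = (1 / 6) * Y B (mrg n p0 p1) := by
  refine Y_mean hB _ _ _ fun B hB k => ?_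
  have m1 : ∀ p, mrg n p0 p1 (some p) none = 0 := by
    intro p
    unfold mrg
    by_cases e1 : p = p1
    · simp [e1]
    · by_cases e0 : p = p0
      · subst e0; simp [e1, h1, h2]
      · simp [e1, e0, h3 p e0 e1]
  have m2 : ∀ q, mrg n p0 p1 none (some q) = 0 := by
    intro q; unfold mrg; simp [h4]
  rw [sum_gv_xx k n (fun φ ψ => if φ p0 = φ p1 then 6 else 0) ?_,
    sum_gv_nomark k (mrg n p0 p1) m1 m2, mul_left_comm]
  · congr 1
    have e : ∀ φ : P → Fin 6, (∑ ψ : Q → Fin 6, monV (V4 B k) n φ ψ *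
        (if φ p0 = φ p1 then (6 : ℂ) else 0))
        = if φ p0 = φ p1 then ∑ ψ : Q → Fin 6, monV (V4 B k) (mrg n p0 p1) φ ψ * 6 else 0 := by
      intro φ
      split_ifs with hφ
      · refine Finset.sum_congr rfl fun ψ _ => ?_
        congr 1
        unfold monV
        rw [Finset.prod_comm, Finset.prod_comm (f := fun p q =>
          (H138.s6 * V4 B k (φ p) (ψ q)) ^ mrg n p0 p1 (some p) (some q))]
        refine Finset.prod_congr rfl fun q _ => ?_
        have hb := (q611_of hB k 0).ext.toBase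
        have hn : mrg n p0 p1 none (some q) = n none (some q) := by unfold mrg; simp
        have := prod_mrg hb (ψ q).castSucc φ (fun p => n p (some q))
          (fun p => mrg n p0 p1 p (some q)) p0 p1 h01 hφ (by simp [mrg]) (by simp [mrg, h01])
          (fun p e0 e1 => by simp [mrg, e0, e1])
        rw [Fintype.prod_option, Fintype.prod_option] at this
        simp only [h4, hn, zpow_zero, one_mul, ex_some, xx_ac] at this
        exact this
      · simp
    simp only [e]
    have h := sum_ite_eq_avg (fun φ : P → Fin 6 =>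
      ∑ ψ : Q → Fin 6, monV (V4 B k) (mrg n p0 p1) φ ψ * 6) p0 p1 h01 ?_
    · rw [h]; push_cast; ring
    · intro φ b
      refine Finset.sum_congr rfl fun ψ _ => ?_
      congr 1
      unfold monV
      refine Finset.prod_congr rfl fun p _ => Finset.prod_congr rfl fun q _ => ?_
      by_cases e1 : p = p1
      · simp [mrg, e1]
      · rw [Function.update_of_ne e1]
  · intro φ ψ
    rw [← sum_mark_aa hB k (φ p0) (φ p1)]
    refine Finset.sum_congr rfl fun l _ => ?_
    have e : ∏ p, be4 B k l (φ p) ^ n (some p) none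
        = be4 B k l (φ p0) ^ (1 : ℤ) * be4 B k l (φ p1) ^ (-1 : ℤ) := by
      have e3 := Fintype.prod_eq_mul (f := fun p => be4 B k l (φ p) ^ n (some p) none) p0 p1 h01
        fun p hp => by rw [h3 p hp.1 hp.2, zpow_zero]
      rw [e3, h1, h2]
    rw [e]
    simp [h4]

/-- transposition. -/
theorem Y_tr (hB : IsMUBs B) (n : Option P → Option Q → ℤ) : Y B (fun q p => n p q) = Y B n := by
  rw [← Ev_transpose hB]
  unfold Y
  congr 1
  funext x
  rw [gv_swap (x := x) n]

end Vale.Agent.P355.H349
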