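import Vale.Agent.P355.H349.MRed
import Vale.Agent.P355.H693.Inj

/-! A configuration of a quadruple satisfies all relations of `H693.Inj`; expectations of injective
classes; the exchange rules for matrices on the `7 × 7` grid. -/

namespace Vale.Agent.P355.H349

open Finset Matrix Vale.Agent.P355 H138 H693.Inj

set_option linter.unusedSectionVars false

theorem colw_w7 {x : Fin 7 → Fin 7 → ℂ} (h : Base x) (σ : Pm) : colw x σ w7 = ∑ c : Fin 6,
    x (σ 0).castSucc c.castSucc * x (σ 1).castSucc c.castSucc * x (σ 2).castSucc c.castSucc *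
    (star (x (σ 3).castSucc c.castSucc) * star (x (σ 4).castSucc c.castSucc) *
      star (x (σ 5).castSucc c.castSucc)) := by
  unfold colw
  refine Finset.sum_congr rfl fun c _ => ?_
  rw [Fintype.prod_option]
  simp only [Fin.prod_univ_six, ex_some, ex_none, w7, zpow_zero, one_mul]
  rw [if_pos (by decide), if_pos (by decide), if_pos (by decide), if_neg (by decide),
    if_neg (by decide), if_neg (by decide)]
  simp only [zpow_one, zpow_neg_one, h.inv]
  ring

theorem Conf.full {x : Fin 7 → Fin 7 → ℂ} (h : Conf x) : Full x := by
  refine { toExt := h.toExt, n7 := fun σ => ?_, n7t := fun σ => ?_ }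
  · rw [colw_w7 h.toBase]; exact h.n7r σ
  · rw [colw_w7 h.toBase.transpose]; exact h.n7c σ

end Vale.Agent.P355.H349
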