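import Vale.Agent.P355.H349.KIneq
import Vale.Agent.P355.H693.Lnk

/-! The inequality `κ + (m-2) κ' ≥ (m-1)/6` between coloured values of graphs. -/

namespace Vale.Agent.P355.H349.K

open Finset Matrix Vale.Agent.P355 Vale.Agent.P355.H349 Vale.Agent.P355.H138

variable {m N c : ℕ} {B : Fin m → M6}

/-- the inequality for the averages over embeddings of three colours. -/
theorem K_core (hB : IsMUBs B) (hm : 3 ≤ m) :
    ((m : ℝ) - 1) / 6 ≤ ((Fintype.card (Fin 3 ↪ Fin m) : ℂ)⁻¹ *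
        ∑ f : Fin 3 ↪ Fin m, (6⁻¹ : ℂ) ^ 2 * KK B (f 1) (f 0) (f 1)).re
      + ((m : ℝ) - 2) * ((Fintype.card (Fin 3 ↪ Fin m) : ℂ)⁻¹ *
        ∑ f : Fin 3 ↪ Fin m, (6⁻¹ : ℂ) ^ 2 * KK B (f 1) (f 0) (f 2)).re := by
  have h := K_ineq hB hm
  have e1 := cT_false hB kapG (fun i j _ => (6⁻¹ : ℂ) ^ 2 * KK B i j i)
    fun i j k h1 h2 h3 => sum_gv_kap hB h1 h2 h3
  have e2 := cT_false hB k3G (fun i j k => (6⁻¹ : ℂ) ^ 2 * KK B i j k)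
    fun i j k h1 h2 h3 => sum_gv_k3 hB h1 h2 h3
  unfold kapV k3V at h
  rw [e1, e2, ← sum_emb3 fun i j _ => (6⁻¹ : ℂ) ^ 2 * KK B i j i,
    ← sum_emb3 fun i j k => (6⁻¹ : ℂ) ^ 2 * KK B i j k,
    ← sum_swE fun e : Fin 3 ↪ Fin m => (6⁻¹ : ℂ) ^ 2 * KK B (e 0) (e 1) (e 0),
    ← sum_swE fun e : Fin 3 ↪ Fin m => (6⁻¹ : ℂ) ^ 2 * KK B (e 0) (e 1) (e 2)] at h
  exact h

/-- the four slots. -/
def iK (hN : 4 ≤ N) (i : Fin 4) : Fin N := ⟨i, by omega⟩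

theorem iK_inj (hN : 4 ≤ N) : Function.Injective (iK (N := N) hN) := by
  intro i j h
  have h1 : (i : ℕ) = j := by
    have := congrArg Fin.val h
    exact this
  exact Fin.ext h1

/-- the flows: `2` on the edges `2 → 0`, `1 → 2`, `0 → 3`, `3 → 1`. -/
def fK (hN : 4 ≤ N) : Fin N → Fin N → ℤ :=
  H693.edF (iK hN) (![2, 1, 0, 3] : Fin 4 → Fin 4) ![0, 2, 3, 1] (fun _ => 2)

/-- splitting of four vertices. -/
def fun4 : (Fin 4 → Fin 6) ≃ Fin 6 × Fin 6 × Fin 6 × Fin 6 where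
  toFun f := (f 0, f 1, f 2, f 3)
  invFun t := ![t.1, t.2.1, t.2.2.1, t.2.2.2]
  left_inv f := by
    funext i
    fin_cases i <;> rfl
  right_inv t := rfl

theorem sum4 (F : Fin 6 → Fin 6 → Fin 6 → Fin 6 → ℂ) :
    ∑ w : Fin 4 → Fin 6, F (w 0) (w 1) (w 2) (w 3) = ∑ b, ∑ b', ∑ a, ∑ a', F b b' a a' := by
  rw [Fintype.sum_equiv fun4 (fun w => F (w 0) (w 1) (w 2) (w 3))
    (fun t => F t.1 t.2.1 t.2.2.1 t.2.2.2) fun e => rfl]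
  simp only [Fintype.sum_prod_type]

/-- the inner sum. -/
theorem sum_form (i j k : Fin m) :
    (6⁻¹ : ℂ) ^ 4 * ∑ w : Fin 4 → Fin 6,
      H147.hh B (i, w 2) (j, w 0) ^ (2 : ℤ) * H147.hh B (j, w 1) (i, w 2) ^ (2 : ℤ) *
      H147.hh B (j, w 0) (k, w 3) ^ (2 : ℤ) * H147.hh B (k, w 3) (j, w 1) ^ (2 : ℤ)
      = (6⁻¹ : ℂ) ^ 2 * KK B i j k := by
  rw [sum4 fun b b' a a' => H147.hh B (i, a) (j, b) ^ (2 : ℤ) * H147.hh B (j, b') (i, a) ^ (2 : ℤ) *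
      H147.hh B (j, b) (k, a') ^ (2 : ℤ) * H147.hh B (k, a') (j, b') ^ (2 : ℤ)]
  unfold KK
  rw [Finset.mul_sum, Finset.mul_sum]
  refine Finset.sum_congr rfl fun b _ => ?_
  rw [Finset.mul_sum, Finset.mul_sum]
  refine Finset.sum_congr rfl fun b' _ => ?_
  rw [star_rr]
  unfold rr
  rw [mul_mul_mul_comm (6⁻¹ : ℂ), Finset.sum_mul_sum, ← mul_assoc,
    show ((6⁻¹ : ℂ) ^ 2 * (6⁻¹ * 6⁻¹)) = (6⁻¹ : ℂ) ^ 4 by ring]
  congr 1
  refine Finset.sum_congr rfl fun a _ => ?_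
  refine Finset.sum_congr rfl fun a' _ => ?_
  ring

theorem gv_K (hB : IsMUBs B) (hc : 3 ≤ c) (hcm : c ≤ m) (hN : 4 ≤ N) (l : Fin 4 → Fin 3)
    (hl0 : l 0 = 0) (hl1 : l 1 = 0) (col : Fin N → Option (Fin c))
    (hcol : ∀ i : Fin 4, col (iK hN i) = some (Fin.castLE hc (l i)))
    (hoth : ∀ p, p ∉ Set.range (iK hN) → col p = none) (lab : Fin N → Bool)
    (hlab : ∀ a, lab (iK hN a) = false) :
    H147.gv B col lab (fK hN) = (Fintype.card (Fin 3 ↪ Fin m) : ℂ)⁻¹ *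
      ∑ f : Fin 3 ↪ Fin m, (6⁻¹ : ℂ) ^ 2 * KK B (f (l 2)) (f 0) (f (l 3)) := by
  unfold fK
  rw [H693.gv_edges hB (iK hN) (iK_inj hN) (fun i => Fin.castLE hc (l i)) col hcol hoth lab hlab]
  have h1 : ∀ e : Fin c ↪ Fin m, ((6⁻¹ : ℂ) ^ Fintype.card (Fin 4) * ∑ w : Fin 4 → Fin 6,
        ∏ j, H147.hh B (e (Fin.castLE hc (l ((![2, 1, 0, 3] : Fin 4 → Fin 4) j))),
            w ((![2, 1, 0, 3] : Fin 4 → Fin 4) j))
          (e (Fin.castLE hc (l ((![0, 2, 3, 1] : Fin 4 → Fin 4) j))),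
            w ((![0, 2, 3, 1] : Fin 4 → Fin 4) j)) ^ (2 : ℤ))
      = (fun f : Fin 3 ↪ Fin m => (6⁻¹ : ℂ) ^ 2 * KK B (f (l 2)) (f 0) (f (l 3))) (H693.rst hc e) := by
    intro e
    show _ = (6⁻¹ : ℂ) ^ 2 * KK B (e (Fin.castLE hc (l 2))) (e (Fin.castLE hc 0))
      (e (Fin.castLE hc (l 3)))
    rw [← sum_form]
    rw [Fintype.card_fin]
    congr 1
    refine Finset.sum_congr rfl fun w _ => ?_
    rw [Fin.prod_univ_four]
    simp only [Matrix.cons_val_zero, Matrix.cons_val_one, Matrix.cons_val_two, Matrix.head_cons,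
      Matrix.tail_cons, Matrix.cons_val, hl0, hl1]
  simp only [h1]
  exact H693.avg_rst hc hcm (fun f : Fin 3 ↪ Fin m => (6⁻¹ : ℂ) ^ 2 * KK B (f (l 2)) (f 0) (f (l 3)))

/-- **(K) for coloured values of graphs**: slots `0, 1` of colour `0`; slots `2, 3` of colours
`1, 1` (`κ`) and `1, 2` (`κ'`). -/
theorem K_gv (hB : IsMUBs B) (hm : 3 ≤ m) (hc : 3 ≤ c) (hcm : c ≤ m) (hN : 4 ≤ N)
    (col col3 : Fin N → Option (Fin c)) (lab lab3 : Fin N → Bool)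
    (hcol : ∀ i : Fin 4, col (iK hN i) = some (Fin.castLE hc ((![0, 0, 1, 1] : Fin 4 → Fin 3) i)))
    (hcol3 : ∀ i : Fin 4, col3 (iK hN i) = some (Fin.castLE hc ((![0, 0, 1, 2] : Fin 4 → Fin 3) i)))
    (hoth : ∀ p, p ∉ Set.range (iK hN) → col p = none)
    (hoth3 : ∀ p, p ∉ Set.range (iK hN) → col3 p = none)
    (hlab : ∀ a, lab (iK hN a) = false) (hlab3 : ∀ a, lab3 (iK hN a) = false) :
    ((m : ℝ) - 1) / 6 ≤ (H147.gv B col lab (fK hN)).re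
      + ((m : ℝ) - 2) * (H147.gv B col3 lab3 (fK hN)).re := by
  rw [gv_K hB hc hcm hN ![0, 0, 1, 1] rfl rfl col hcol hoth lab hlab,
    gv_K hB hc hcm hN ![0, 0, 1, 2] rfl rfl col3 hcol3 hoth3 lab3 hlab3]
  exact K_core hB hm

end Vale.Agent.P355.H349.K
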