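import Vale.Agent.P355.H138.VT
import Vale.Agent.P355.H693.T2Pos

/-! The inequality `κ + (n-2) κ' ≥ (n-1)/6` for `n ≥ 3` mutually unbiased bases of `ℂ⁶`, and the
value of the class `t²`, in the language of coloured natural classes. -/

namespace Vale.Agent.P355.H349.K

open Finset Matrix Vale.Agent.P355 Vale.Agent.P355.H349 Vale.Agent.P355.H138

variable {n : ℕ} {B : Fin n → M6}

/-! ### Sums over embeddings of three colours -/

/-- ordered triples of distinct elements. -/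
def emb3 (n : ℕ) : (Fin 3 ↪ Fin n) ≃
    {t : Fin n × Fin n × Fin n // t.1 ≠ t.2.1 ∧ t.1 ≠ t.2.2 ∧ t.2.1 ≠ t.2.2} where
  toFun e := ⟨(e 0, e 1, e 2), fun h => absurd (e.injective h) (by decide),
    fun h => absurd (e.injective h) (by decide), fun h => absurd (e.injective h) (by decide)⟩
  invFun t := ⟨![t.1.1, t.1.2.1, t.1.2.2], by
    obtain ⟨⟨i, j, k⟩, h1, h2, h3⟩ := t
    simp only at h1 h2 h3
    intro p q h
    fin_cases p <;> fin_cases q <;> simp_all [Ne.symm h1, Ne.symm h2, Ne.symm h3]⟩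
  left_inv e := by
    ext i
    fin_cases i <;> rfl
  right_inv t := rfl

theorem sum_emb3 {M : Type*} [AddCommMonoid M] (F : Fin n → Fin n → Fin n → M) :
    ∑ e : Fin 3 ↪ Fin n, F (e 0) (e 1) (e 2)
      = ∑ i, ∑ j, ∑ k, if i ≠ j ∧ i ≠ k ∧ j ≠ k then F i j k else 0 := by
  rw [Fintype.sum_equiv (emb3 n) (fun e => F (e 0) (e 1) (e 2))
    (fun t => F t.1.1 t.1.2.1 t.1.2.2) fun e => rfl]
  rw [← Finset.sum_subtype (Finset.univ.filter fun t : Fin n × Fin n × Fin n =>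
    t.1 ≠ t.2.1 ∧ t.1 ≠ t.2.2 ∧ t.2.1 ≠ t.2.2) (by simp) (fun t => F t.1 t.2.1 t.2.2),
    Finset.sum_filter, Fintype.sum_prod_type]
  simp only [Fintype.sum_prod_type]

theorem card_emb3 (n : ℕ) : Fintype.card (Fin 3 ↪ Fin n) = n * (n - 1) * (n - 2) := by
  rw [Fintype.card_embedding_eq, Fintype.card_fin, Fintype.card_fin]
  simp only [Nat.descFactorial_succ, Nat.descFactorial_zero, Nat.sub_zero, mul_one]
  ring

/-! ### Free sums -/

/-- splitting of three vertices. -/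
def fun3 : (Fin 3 → Fin 6) ≃ Fin 6 × Fin 6 × Fin 6 where
  toFun f := (f 0, f 1, f 2)
  invFun t := ![t.1, t.2.1, t.2.2]
  left_inv f := by
    funext i
    fin_cases i <;> rfl
  right_inv t := rfl

theorem sum3 (f : Fin 6 → Fin 6 → ℂ) :
    ∑ φ : Fin 3 → Fin 6, f (φ 0) (φ 1) = 6 * ∑ a, ∑ b, f a b := by
  rw [Fintype.sum_equiv fun3 (fun φ => f (φ 0) (φ 1)) (fun t => f t.1 t.2.1) fun e => rfl,
    Fintype.sum_prod_type]
  simp only [Fintype.sum_prod_type, Finset.sum_const, Finset.card_univ, Fintype.card_fin,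
    nsmul_eq_mul]
  rw [Finset.mul_sum]
  refine Finset.sum_congr rfl fun a _ => ?_
  rw [Finset.mul_sum]
  norm_num

theorem sum33 (F : Fin 6 → Fin 6 → Fin 6 → Fin 6 → ℂ) :
    ∑ φ : Fin 3 → Fin 6, ∑ ψ : Fin 3 → Fin 6, F (φ 0) (φ 1) (ψ 0) (ψ 1)
      = 36 * ∑ a, ∑ a', ∑ c, ∑ c', F a a' c c' := by
  have h1 : ∀ φ : Fin 3 → Fin 6, ∑ ψ : Fin 3 → Fin 6, F (φ 0) (φ 1) (ψ 0) (ψ 1)
      = 6 * ∑ c, ∑ c', F (φ 0) (φ 1) c c' := fun φ => sum3 (F (φ 0) (φ 1))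
  simp only [h1]
  rw [sum3 (fun a a' => 6 * ∑ c, ∑ c', F a a' c c')]
  simp only [← Finset.mul_sum]
  ring

/-! ### The classes -/

/-- the squared four-cycle. -/
def kapG (p q : Option (Fin 3)) : ℤ :=
  if p = some 0 ∧ q = some 0 ∨ p = some 1 ∧ q = some 1 then 2
  else if p = some 0 ∧ q = some 1 ∨ p = some 1 ∧ q = some 0 then -2 else 0

/-- the squared four-cycle through the vector. -/
def k3G (p q : Option (Fin 3)) : ℤ :=
  if p = some 0 ∧ q = some 0 then 2 else if p = some 0 ∧ q = some 1 then -2 else 0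

/-- the squared triangle. -/
def t2G (p q : Option (Fin 3)) : ℤ := if p = some 0 ∧ q = some 0 then 2 else 0

variable {x : Fin 7 → Fin 7 → ℂ}

theorem gv_kapG : gv x kapG = (6⁻¹ : ℂ) ^ 4 * ∑ a : Fin 6, ∑ a' : Fin 6, ∑ c : Fin 6, ∑ c' : Fin 6,
    (x a.castSucc c.castSucc ^ (2 : ℤ) * x a.castSucc c'.castSucc ^ (-2 : ℤ)) *
      (x a'.castSucc c.castSucc ^ (-2 : ℤ) * x a'.castSucc c'.castSucc ^ (2 : ℤ)) := by
  have h : ∀ φ ψ : Fin 3 → Fin 6, mon x kapG φ ψ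
      = (fun a a' c c' : Fin 6 =>
        (x a.castSucc c.castSucc ^ (2 : ℤ) * x a.castSucc c'.castSucc ^ (-2 : ℤ)) *
      (x a'.castSucc c.castSucc ^ (-2 : ℤ) * x a'.castSucc c'.castSucc ^ (2 : ℤ)))
        (φ 0) (φ 1) (ψ 0) (ψ 1) := by
    intro φ ψ
    unfold mon
    simp only [Fintype.prod_option, Fin.prod_univ_succ, Fin.prod_univ_zero, mul_one, ex_none,
      ex_some]
    simp [kapG]
  unfold gv
  simp only [h]
  rw [sum33 (fun a a' c c' : Fin 6 =>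
        (x a.castSucc c.castSucc ^ (2 : ℤ) * x a.castSucc c'.castSucc ^ (-2 : ℤ)) *
      (x a'.castSucc c.castSucc ^ (-2 : ℤ) * x a'.castSucc c'.castSucc ^ (2 : ℤ)))]
  simp only [Fintype.card_fin]
  ring

theorem gv_k3G : gv x k3G = (6⁻¹ : ℂ) ^ 3 * ∑ a : Fin 6, ∑ c : Fin 6, ∑ c' : Fin 6,
    x a.castSucc c.castSucc ^ (2 : ℤ) * x a.castSucc c'.castSucc ^ (-2 : ℤ) := by
  have h : ∀ φ ψ : Fin 3 → Fin 6, mon x k3G φ ψ
      = (fun a _a' c c' : Fin 6 =>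
        x a.castSucc c.castSucc ^ (2 : ℤ) * x a.castSucc c'.castSucc ^ (-2 : ℤ))
        (φ 0) (φ 1) (ψ 0) (ψ 1) := by
    intro φ ψ
    unfold mon
    simp only [Fintype.prod_option, Fin.prod_univ_succ, Fin.prod_univ_zero, mul_one, ex_none,
      ex_some]
    simp [k3G]
  unfold gv
  simp only [h]
  rw [sum33 (fun a _a' c c' : Fin 6 =>
        x a.castSucc c.castSucc ^ (2 : ℤ) * x a.castSucc c'.castSucc ^ (-2 : ℤ))]
  simp only [Fintype.card_fin, Finset.sum_const, Finset.card_univ, nsmul_eq_mul, ← Finset.mul_sum]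
  push_cast
  ring

theorem gv_t2G : gv x t2G = (6⁻¹ : ℂ) ^ 2 * ∑ a : Fin 6, ∑ c : Fin 6,
    x a.castSucc c.castSucc ^ (2 : ℤ) := by
  have h : ∀ φ ψ : Fin 3 → Fin 6, mon x t2G φ ψ
      = (fun a _a' c _c' : Fin 6 => x a.castSucc c.castSucc ^ (2 : ℤ))
        (φ 0) (φ 1) (ψ 0) (ψ 1) := by
    intro φ ψ
    unfold mon
    simp only [Fintype.prod_option, Fin.prod_univ_succ, Fin.prod_univ_zero, mul_one, ex_none,
      ex_some]
    simp [t2G]
  unfold gv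
  simp only [h]
  rw [sum33 (fun a _a' c _c' : Fin 6 => x a.castSucc c.castSucc ^ (2 : ℤ))]
  simp only [Fintype.card_fin, Finset.sum_const, Finset.card_univ, nsmul_eq_mul, ← Finset.mul_sum]
  push_cast
  ring

theorem sum4_swap (F : Fin 6 → Fin 6 → Fin 6 → Fin 6 → ℂ) :
    ∑ a, ∑ a', ∑ c, ∑ c', F a a' c c' = ∑ c, ∑ c', ∑ a, ∑ a', F a a' c c' := by
  have h1 : ∀ a, ∑ a', ∑ c, ∑ c', F a a' c c' = ∑ c, ∑ c', ∑ a', F a a' c c' := by
    intro a
    rw [Finset.sum_comm]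
    exact Finset.sum_congr rfl fun c _ => Finset.sum_comm
  simp only [h1]
  rw [Finset.sum_comm]
  exact Finset.sum_congr rfl fun c _ => Finset.sum_comm

/-! ### The form `r` -/

/-- `r_i(j; b, b') = (1/6) ∑_a h(a,b)² h(b',a)²`, `a` in the basis `i`, `b, b'` in the basis `j`. -/
noncomputable def rr (B : Fin n → M6) (i j : Fin n) (b b' : Fin 6) : ℂ :=
  6⁻¹ * ∑ a : Fin 6, H147.hh B (i, a) (j, b) ^ (2 : ℤ) * H147.hh B (j, b') (i, a) ^ (2 : ℤ)

theorem star_rr (i j : Fin n) (b b' : Fin 6) : star (rr B i j b b') = rr B i j b' b := by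
  unfold rr
  simp only [star_mul', star_sum, star_zpow₀, H147.star_hh, star_inv₀, star_ofNat]
  congr 1
  exact Finset.sum_congr rfl fun a _ => mul_comm _ _

theorem rr_self (hB : IsMUBs B) (i j : Fin n) (b : Fin 6) : rr B i j b b = 1 := by
  unfold rr
  have h : ∀ a : Fin 6, H147.hh B (i, a) (j, b) ^ (2 : ℤ) * H147.hh B (j, b) (i, a) ^ (2 : ℤ) = 1 :=
    fun a => by rw [← mul_zpow, H147.hh_unit hB, one_zpow]
  simp only [h, Finset.sum_const, Finset.card_univ, Fintype.card_fin, nsmul_eq_mul]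
  norm_num

variable {i j : Fin n} {u : Fin n × Fin 6}

theorem hh_nz (hB : IsMUBs B) (p q : Fin n × Fin 6) : H147.hh B p q ≠ 0 := H138.hh_nz hB p q

theorem hh_neg (hB : IsMUBs B) (p q : Fin n × Fin 6) (k : ℤ) :
    H147.hh B p q ^ (-k) = H147.hh B q p ^ k := by
  have h : (H147.hh B p q)⁻¹ = H147.hh B q p := inv_eq_of_mul_eq_one_right (H147.hh_unit hB p q)
  rw [zpow_neg, ← inv_zpow, h]

/-- the inner factor. -/
theorem x_pair (hB : IsMUBs B) (hij : i ≠ j) (hi : u.1 ≠ i) (hj : u.1 ≠ j) (a c c' : Fin 6) :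
    xT B i j u a.castSucc c.castSucc ^ (2 : ℤ) * xT B i j u a.castSucc c'.castSucc ^ (-2 : ℤ)
      = (H147.hh B (i, a) (j, c) ^ (2 : ℤ) * H147.hh B (j, c') (i, a) ^ (2 : ℤ)) *
        (H147.hh B (j, c) u ^ (2 : ℤ) * H147.hh B u (j, c') ^ (2 : ℤ)) := by
  rw [xT_ac hij hi hj, xT_ac hij hi hj]
  simp only [mul_zpow]
  rw [hh_neg hB u, hh_neg hB (i, a), hh_neg hB (j, c')]
  have h1 : H147.hh B u (i, a) ^ (2 : ℤ) * H147.hh B (i, a) u ^ (2 : ℤ) = 1 := by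
    rw [← mul_zpow, H147.hh_unit hB, one_zpow]
  linear_combination (H147.hh B (i, a) (j, c) ^ (2 : ℤ) * H147.hh B (j, c') (i, a) ^ (2 : ℤ) *
        (H147.hh B (j, c) u ^ (2 : ℤ) * H147.hh B u (j, c') ^ (2 : ℤ))) * h1

theorem x_pair' (hB : IsMUBs B) (hij : i ≠ j) (hi : u.1 ≠ i) (hj : u.1 ≠ j) (a c c' : Fin 6) :
    xT B i j u a.castSucc c.castSucc ^ (-2 : ℤ) * xT B i j u a.castSucc c'.castSucc ^ (2 : ℤ)
      = (H147.hh B (i, a) (j, c') ^ (2 : ℤ) * H147.hh B (j, c) (i, a) ^ (2 : ℤ)) *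
        (H147.hh B (j, c') u ^ (2 : ℤ) * H147.hh B u (j, c) ^ (2 : ℤ)) := by
  rw [mul_comm, x_pair hB hij hi hj]

theorem gv_kap (hB : IsMUBs B) (hij : i ≠ j) (hi : u.1 ≠ i) (hj : u.1 ≠ j) :
    gv (xT B i j u) kapG = (6⁻¹ : ℂ) ^ 2 * ∑ c, ∑ c', rr B i j c c' * star (rr B i j c c') := by
  have hu : ∀ c : Fin 6, H147.hh B (j, c) u ^ (2 : ℤ) * H147.hh B u (j, c) ^ (2 : ℤ) = 1 :=
    fun c => by rw [← mul_zpow, H147.hh_unit hB, one_zpow]
  rw [gv_kapG]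
  simp only [x_pair hB hij hi hj, x_pair' hB hij hi hj]
  have h : ∀ a a' c c' : Fin 6,
      (H147.hh B (i, a) (j, c) ^ (2 : ℤ) * H147.hh B (j, c') (i, a) ^ (2 : ℤ)) *
        (H147.hh B (j, c) u ^ (2 : ℤ) * H147.hh B u (j, c') ^ (2 : ℤ)) *
      ((H147.hh B (i, a') (j, c') ^ (2 : ℤ) * H147.hh B (j, c) (i, a') ^ (2 : ℤ)) *
        (H147.hh B (j, c') u ^ (2 : ℤ) * H147.hh B u (j, c) ^ (2 : ℤ)))
      = (H147.hh B (i, a) (j, c) ^ (2 : ℤ) * H147.hh B (j, c') (i, a) ^ (2 : ℤ)) *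
        (H147.hh B (i, a') (j, c') ^ (2 : ℤ) * H147.hh B (j, c) (i, a') ^ (2 : ℤ)) := by
    intro a a' c c'
    linear_combination ((H147.hh B (i, a) (j, c) ^ (2 : ℤ) * H147.hh B (j, c') (i, a) ^ (2 : ℤ)) *
        (H147.hh B (i, a') (j, c') ^ (2 : ℤ) * H147.hh B (j, c) (i, a') ^ (2 : ℤ))) *
        (H147.hh B (j, c') u ^ (2 : ℤ) * H147.hh B u (j, c') ^ (2 : ℤ)) * hu c
      + ((H147.hh B (i, a) (j, c) ^ (2 : ℤ) * H147.hh B (j, c') (i, a) ^ (2 : ℤ)) *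
        (H147.hh B (i, a') (j, c') ^ (2 : ℤ) * H147.hh B (j, c) (i, a') ^ (2 : ℤ))) * hu c'
  simp only [h, star_rr]
  have h2 : ∑ a : Fin 6, ∑ a' : Fin 6, ∑ c : Fin 6, ∑ c' : Fin 6,
      (H147.hh B (i, a) (j, c) ^ (2 : ℤ) * H147.hh B (j, c') (i, a) ^ (2 : ℤ)) *
        (H147.hh B (i, a') (j, c') ^ (2 : ℤ) * H147.hh B (j, c) (i, a') ^ (2 : ℤ))
      = ∑ c, ∑ c', (6 * rr B i j c c') * (6 * rr B i j c' c) := by
    have h3 : ∀ c c' : Fin 6, (6 * rr B i j c c') * (6 * rr B i j c' c)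
        = ∑ a : Fin 6, ∑ a' : Fin 6,
      (H147.hh B (i, a) (j, c) ^ (2 : ℤ) * H147.hh B (j, c') (i, a) ^ (2 : ℤ)) *
        (H147.hh B (i, a') (j, c') ^ (2 : ℤ) * H147.hh B (j, c) (i, a') ^ (2 : ℤ)) := by
      intro c c'
      unfold rr
      rw [← mul_assoc (6 : ℂ), ← mul_assoc (6 : ℂ), mul_inv_cancel₀ (by norm_num : (6 : ℂ) ≠ 0),
        one_mul, one_mul, Finset.sum_mul_sum]
    simp only [h3]
    exact sum4_swap _
  rw [h2]
  simp only [Finset.mul_sum]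
  refine Finset.sum_congr rfl fun c _ => Finset.sum_congr rfl fun c' _ => ?_
  ring

/-- the Hermitian form of two of the `r`. -/
noncomputable def KK (B : Fin n → M6) (i j k : Fin n) : ℂ :=
  ∑ c, ∑ c', rr B i j c c' * star (rr B k j c c')

theorem sum_gv_kap (hB : IsMUBs B) {k : Fin n} (hij : i ≠ j) (hik : i ≠ k) (hjk : j ≠ k) :
    6⁻¹ * ∑ b, gv (xT B i j (k, b)) kapG = (6⁻¹ : ℂ) ^ 2 * KK B i j i := by
  have h : ∀ b : Fin 6, gv (xT B i j (k, b)) kapG = (6⁻¹ : ℂ) ^ 2 * KK B i j i := fun b =>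
    gv_kap hB hij (Ne.symm hik) (Ne.symm hjk)
  simp only [h, Finset.sum_const, Finset.card_univ, Fintype.card_fin, nsmul_eq_mul]
  push_cast
  ring

theorem gv_k3 (hB : IsMUBs B) (hij : i ≠ j) (hi : u.1 ≠ i) (hj : u.1 ≠ j) :
    gv (xT B i j u) k3G = (6⁻¹ : ℂ) ^ 2 * ∑ c, ∑ c', rr B i j c c' *
      (H147.hh B (j, c) u ^ (2 : ℤ) * H147.hh B u (j, c') ^ (2 : ℤ)) := by
  rw [gv_k3G]
  simp only [x_pair hB hij hi hj]
  have h3 : ∀ c c' : Fin 6, rr B i j c c' *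
      (H147.hh B (j, c) u ^ (2 : ℤ) * H147.hh B u (j, c') ^ (2 : ℤ))
      = 6⁻¹ * ∑ a : Fin 6, (H147.hh B (i, a) (j, c) ^ (2 : ℤ) * H147.hh B (j, c') (i, a) ^ (2 : ℤ)) *
        (H147.hh B (j, c) u ^ (2 : ℤ) * H147.hh B u (j, c') ^ (2 : ℤ)) := by
    intro c c'
    unfold rr
    rw [mul_assoc, Finset.sum_mul]
  simp only [h3, ← Finset.mul_sum]
  have h4 : ∀ F : Fin 6 → Fin 6 → Fin 6 → ℂ, ∑ a, ∑ c, ∑ c', F a c c' = ∑ c, ∑ c', ∑ a, F a c c' := by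
    intro F
    rw [Finset.sum_comm]
    exact Finset.sum_congr rfl fun c _ => Finset.sum_comm
  rw [h4]
  ring

theorem sum_gv_k3 (hB : IsMUBs B) {k : Fin n} (hij : i ≠ j) (hik : i ≠ k) (hjk : j ≠ k) :
    6⁻¹ * ∑ b, gv (xT B i j (k, b)) k3G = (6⁻¹ : ℂ) ^ 2 * KK B i j k := by
  have h : ∀ b : Fin 6, gv (xT B i j (k, b)) k3G = (6⁻¹ : ℂ) ^ 2 * ∑ c, ∑ c', rr B i j c c' *
      (H147.hh B (j, c) (k, b) ^ (2 : ℤ) * H147.hh B (k, b) (j, c') ^ (2 : ℤ)) := fun b =>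
    gv_k3 hB hij (Ne.symm hik) (Ne.symm hjk)
  simp only [h, ← Finset.mul_sum]
  have h4 : ∀ F : Fin 6 → Fin 6 → Fin 6 → ℂ, ∑ a, ∑ c, ∑ c', F a c c' = ∑ c, ∑ c', ∑ a, F a c c' := by
    intro F
    rw [Finset.sum_comm]
    exact Finset.sum_congr rfl fun c _ => Finset.sum_comm
  rw [h4]
  unfold KK
  rw [mul_left_comm, Finset.mul_sum]
  congr 1
  refine Finset.sum_congr rfl fun c _ => ?_
  rw [Finset.mul_sum]
  refine Finset.sum_congr rfl fun c' _ => ?_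
  rw [star_rr, ← Finset.mul_sum]
  unfold rr
  have h5 : ∀ b : Fin 6, H147.hh B (j, c) (k, b) ^ (2 : ℤ) * H147.hh B (k, b) (j, c') ^ (2 : ℤ)
      = H147.hh B (k, b) (j, c') ^ (2 : ℤ) * H147.hh B (j, c) (k, b) ^ (2 : ℤ) := fun b =>
    mul_comm _ _
  simp only [h5]
  ring

/-! ### Values of the classes -/

theorem cT_false (hB : IsMUBs B) (g : Option (Fin 3) → Option (Fin 3) → ℤ)
    (F : Fin n → Fin n → Fin n → ℂ)
    (h : ∀ i j k, i ≠ j → i ≠ k → j ≠ k → 6⁻¹ * ∑ b, gv (xT B i j (k, b)) g = F i j k) :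
    cT B false g = ((Fintype.card (Fin 3 ↪ Fin n) : ℂ)⁻¹ *
      ∑ i, ∑ j, ∑ k, if i ≠ j ∧ i ≠ k ∧ j ≠ k then F i j k else 0).re := by
  unfold cT
  rw [gv_T hB, show pw6 false = 1 from rfl, one_mul]
  congr 2
  rw [← sum_emb3 F]
  refine Finset.sum_congr rfl fun e _ => h _ _ _ (fun h => absurd (e.injective h) (by decide))
    (fun h => absurd (e.injective h) (by decide)) (fun h => absurd (e.injective h) (by decide))

/-- the real number `κ`. -/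
noncomputable def kapV (B : Fin n → M6) : ℝ := cT B false kapG
/-- the real number `κ'`. -/
noncomputable def k3V (B : Fin n → M6) : ℝ := cT B false k3G
/-- the real number `t²`. -/
noncomputable def t2V (B : Fin n → M6) : ℝ := cT B false t2G

theorem card_third {i j : Fin n} (hij : i ≠ j) :
    ((Finset.univ.filter fun k : Fin n => i ≠ k ∧ j ≠ k).card : ℂ) = (n : ℂ) - 2 := by
  have h1 : (Finset.univ.filter fun k : Fin n => i ≠ k ∧ j ≠ k) = (Finset.univ.erase i).erase j := by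
    ext k
    simp only [Finset.mem_filter, Finset.mem_univ, true_and, Finset.mem_erase, and_true]
    exact ⟨fun h => ⟨Ne.symm h.2, Ne.symm h.1⟩, fun h => ⟨Ne.symm h.2, Ne.symm h.1⟩⟩
  have h2 : ((Finset.univ.erase i).erase j).card + 1 = (Finset.univ.erase i).card :=
    Finset.card_erase_add_one (Finset.mem_erase.2 ⟨Ne.symm hij, Finset.mem_univ _⟩)
  have h3 : (Finset.univ.erase i).card + 1 = n := by
    rw [Finset.card_erase_add_one (Finset.mem_univ _), Finset.card_univ, Fintype.card_fin]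
  have h4 : ((Finset.univ.erase i).erase j).card + 2 = n := by omega
  rw [h1]
  have h5 : ((((Finset.univ.erase i).erase j).card + 2 : ℕ) : ℂ) = (n : ℂ) := by rw [h4]
  push_cast at h5
  linear_combination h5

theorem sum_third (f : Fin n → Fin n → ℂ) :
    (∑ i, ∑ j, ∑ k, if i ≠ j ∧ i ≠ k ∧ j ≠ k then f i j else 0)
      = ((n : ℂ) - 2) * ∑ i, ∑ j, if i ≠ j then f i j else 0 := by
  rw [Finset.mul_sum]
  refine Finset.sum_congr rfl fun i _ => ?_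
  rw [Finset.mul_sum]
  refine Finset.sum_congr rfl fun j _ => ?_
  by_cases hij : i = j
  · simp [hij]
  · rw [if_pos hij, ← card_third hij, ← nsmul_eq_mul, ← Finset.sum_const, Finset.sum_filter]
    refine Finset.sum_congr rfl fun k _ => ?_
    simp [hij]

theorem sum_split (f : Fin n → Fin n → Fin n → ℂ) :
    (∑ i, ∑ j, ∑ k, if i ≠ j ∧ k ≠ j then f i j k else 0)
      = (∑ i, ∑ j, if i ≠ j then f i j i else 0)
        + ∑ i, ∑ j, ∑ k, if i ≠ j ∧ i ≠ k ∧ j ≠ k then f i j k else 0 := by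
  rw [← Finset.sum_add_distrib]
  refine Finset.sum_congr rfl fun i _ => ?_
  rw [← Finset.sum_add_distrib]
  refine Finset.sum_congr rfl fun j _ => ?_
  have h1 : (if i ≠ j then f i j i else 0) = ∑ k, if k = i then (if i ≠ j then f i j i else 0) else 0 := by
    rw [Finset.sum_ite_eq' Finset.univ i, if_pos (Finset.mem_univ _)]
  rw [h1, ← Finset.sum_add_distrib]
  refine Finset.sum_congr rfl fun k _ => ?_
  by_cases hik : k = i
  · subst hik
    by_cases hij : k = j <;> simp [hij]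
  · by_cases hij : i = j
    · simp [hij]
    · by_cases hkj : k = j
      · subst hkj
        simp [hik]
      · simp [hik, hij, hkj, Ne.symm hik, Ne.symm hkj]

/-- the total form. -/
noncomputable def RR (B : Fin n → M6) (j : Fin n) (c c' : Fin 6) : ℂ :=
  ∑ i, if i ≠ j then rr B i j c c' else 0

theorem RR_self (hB : IsMUBs B) (j : Fin n) (c : Fin 6) : RR B j c c = (n : ℂ) - 1 := by
  unfold RR
  simp only [rr_self hB]
  rw [← Finset.sum_filter, Finset.sum_const, nsmul_eq_mul, mul_one]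
  have h3 : (Finset.univ.filter fun i : Fin n => i ≠ j) = Finset.univ.erase j := by
    ext k; simp
  rw [h3]
  have h4 : (Finset.univ.erase j).card + 1 = n := by
    rw [Finset.card_erase_add_one (Finset.mem_univ _), Finset.card_univ, Fintype.card_fin]
  have h5 : (((Finset.univ.erase j).card + 1 : ℕ) : ℂ) = (n : ℂ) := by rw [h4]
  push_cast at h5
  linear_combination h5

theorem sum_KK (B : Fin n → M6) : (∑ i, ∑ j, ∑ k, if i ≠ j ∧ k ≠ j then KK B i j k else 0)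
    = ∑ j, ∑ c, ∑ c', RR B j c c' * star (RR B j c c') := by
  have h : ∀ i j k : Fin n, (if i ≠ j ∧ k ≠ j then KK B i j k else 0)
      = ∑ c, ∑ c', (if i ≠ j then rr B i j c c' else 0) * star (if k ≠ j then rr B k j c c' else 0) := by
    intro i j k
    by_cases h1 : i = j
    · simp [h1]
    · by_cases h2 : k = j
      · simp [h2]
      · simp [h1, h2, KK]
  simp only [h]
  rw [Finset.sum_comm]
  refine Finset.sum_congr rfl fun j _ => ?_
  have h6 : ∀ c c' : Fin 6, RR B j c c' * star (RR B j c c')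
      = ∑ i, ∑ k, (if i ≠ j then rr B i j c c' else 0) * star (if k ≠ j then rr B k j c c' else 0) := by
    intro c c'
    unfold RR
    rw [star_sum, Finset.sum_mul_sum]
  simp only [h6]
  calc _ = ∑ i, ∑ c, ∑ c', ∑ k, (if i ≠ j then rr B i j c c' else 0) *
        star (if k ≠ j then rr B k j c c' else 0) := by
        refine Finset.sum_congr rfl fun i _ => ?_
        rw [Finset.sum_comm]
        exact Finset.sum_congr rfl fun c _ => Finset.sum_comm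
    _ = _ := by
        rw [Finset.sum_comm]
        exact Finset.sum_congr rfl fun c _ => Finset.sum_comm

theorem RR_ge (hB : IsMUBs B) (j : Fin n) :
    6 * ((n : ℝ) - 1) ^ 2 ≤ (∑ c, ∑ c', RR B j c c' * star (RR B j c c')).re := by
  have h0 : ∀ c c' : Fin 6, (RR B j c c' * star (RR B j c c')).re = Complex.normSq (RR B j c c') := by
    intro c c'
    rw [show RR B j c c' * star (RR B j c c') = (Complex.normSq (RR B j c c') : ℂ) from
      Complex.mul_conj _, Complex.ofReal_re]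
  simp only [Complex.re_sum, h0]
  have h1 : ∀ c : Fin 6, ((n : ℝ) - 1) ^ 2 ≤ ∑ c', Complex.normSq (RR B j c c') := by
    intro c
    have h2 : Complex.normSq (RR B j c c) = ((n : ℝ) - 1) ^ 2 := by
      rw [RR_self hB, show ((n : ℂ) - 1) = (((n : ℝ) - 1 : ℝ) : ℂ) by push_cast; rfl,
        Complex.normSq_ofReal]
      ring
    rw [← h2]
    exact Finset.single_le_sum (f := fun c' => Complex.normSq (RR B j c c'))
      (fun c' _ => Complex.normSq_nonneg _) (Finset.mem_univ c)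
  calc 6 * ((n : ℝ) - 1) ^ 2 = ∑ _c : Fin 6, ((n : ℝ) - 1) ^ 2 := by simp
    _ ≤ _ := Finset.sum_le_sum fun c _ => h1 c

/-- **The inequality (K).** -/
theorem K_ineq (hB : IsMUBs B) (hn : 3 ≤ n) :
    ((n : ℝ) - 1) / 6 ≤ kapV B + ((n : ℝ) - 2) * k3V B := by
  have e1 := cT_false hB kapG (fun i j _ => (6⁻¹ : ℂ) ^ 2 * KK B i j i)
    fun i j k h1 h2 h3 => sum_gv_kap hB h1 h2 h3
  have e2 := cT_false hB k3G (fun i j k => (6⁻¹ : ℂ) ^ 2 * KK B i j k)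
    fun i j k h1 h2 h3 => sum_gv_k3 hB h1 h2 h3
  have hN : (Fintype.card (Fin 3 ↪ Fin n) : ℝ) = (n : ℝ) * ((n : ℝ) - 1) * ((n : ℝ) - 2) := by
    rw [card_emb3]
    obtain ⟨m, rfl⟩ : ∃ m, n = m + 3 := ⟨n - 3, by omega⟩
    have : (m + 3) * (m + 3 - 1) * (m + 3 - 2) = (m + 3) * (m + 2) * (m + 1) := by
      simp
    rw [this]
    push_cast
    ring
  have hn' : (3 : ℝ) ≤ n := by exact_mod_cast hn
  have hpos : (0 : ℝ) < Fintype.card (Fin 3 ↪ Fin n) := by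
    rw [hN]
    have h1 : (0 : ℝ) < (n : ℝ) := by linarith
    have h2 : (0 : ℝ) < (n : ℝ) - 1 := by linarith
    have h3 : (0 : ℝ) < (n : ℝ) - 2 := by linarith
    positivity
  have e3 : kapV B + ((n : ℝ) - 2) * k3V B = ((Fintype.card (Fin 3 ↪ Fin n) : ℝ)⁻¹ *
      ((6 : ℝ)⁻¹ ^ 2 * ((n : ℝ) - 2))) *
      (∑ i, ∑ j, ∑ k, if i ≠ j ∧ k ≠ j then KK B i j k else 0).re := by
    have e4 : ((Fintype.card (Fin 3 ↪ Fin n) : ℂ)⁻¹ *
        (∑ i, ∑ j, ∑ k, if i ≠ j ∧ i ≠ k ∧ j ≠ k then (6⁻¹ : ℂ) ^ 2 * KK B i j i else 0))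
        + ((n : ℂ) - 2) * ((Fintype.card (Fin 3 ↪ Fin n) : ℂ)⁻¹ *
        (∑ i, ∑ j, ∑ k, if i ≠ j ∧ i ≠ k ∧ j ≠ k then (6⁻¹ : ℂ) ^ 2 * KK B i j k else 0))
        = ((Fintype.card (Fin 3 ↪ Fin n) : ℂ)⁻¹ * ((6 : ℂ)⁻¹ ^ 2 * ((n : ℂ) - 2))) *
      (∑ i, ∑ j, ∑ k, if i ≠ j ∧ k ≠ j then KK B i j k else 0) := by
      rw [sum_third fun i j => (6⁻¹ : ℂ) ^ 2 * KK B i j i, sum_split]
      have h7 : ∀ i j : Fin n, (if i ≠ j then (6⁻¹ : ℂ) ^ 2 * KK B i j i else 0)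
          = (6⁻¹ : ℂ) ^ 2 * (if i ≠ j then KK B i j i else 0) := fun i j => by
        rw [mul_ite, mul_zero]
      have h8 : ∀ i j k : Fin n, (if i ≠ j ∧ i ≠ k ∧ j ≠ k then (6⁻¹ : ℂ) ^ 2 * KK B i j k else 0)
          = (6⁻¹ : ℂ) ^ 2 * (if i ≠ j ∧ i ≠ k ∧ j ≠ k then KK B i j k else 0) := fun i j k => by
        rw [mul_ite, mul_zero]
      simp only [h7, h8, ← Finset.mul_sum]
      ring
    have e5 := congrArg Complex.re e4
    have c1 : (((n : ℂ) - 2)) = (((n : ℝ) - 2 : ℝ) : ℂ) := by push_cast; rfl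
    have c2 : ((Fintype.card (Fin 3 ↪ Fin n) : ℂ)⁻¹ * ((6 : ℂ)⁻¹ ^ 2 * ((n : ℂ) - 2)))
        = ((((Fintype.card (Fin 3 ↪ Fin n) : ℝ)⁻¹ * ((6 : ℝ)⁻¹ ^ 2 * ((n : ℝ) - 2)) : ℝ)) : ℂ) := by
      push_cast; rfl
    rw [Complex.add_re, c2, c1, Complex.re_ofReal_mul, Complex.re_ofReal_mul, ← e1, ← e2] at e5
    exact e5
  rw [e3, sum_KK, Complex.re_sum]
  have h9 : (n : ℝ) * (6 * ((n : ℝ) - 1) ^ 2)
      ≤ ∑ j, (∑ c, ∑ c', RR B j c c' * star (RR B j c c')).re := by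
    calc (n : ℝ) * (6 * ((n : ℝ) - 1) ^ 2) = ∑ _j : Fin n, 6 * ((n : ℝ) - 1) ^ 2 := by
          rw [Finset.sum_const, Finset.card_univ, Fintype.card_fin, nsmul_eq_mul]
      _ ≤ _ := Finset.sum_le_sum fun j _ => RR_ge hB j
  have hc : (0 : ℝ) ≤ (Fintype.card (Fin 3 ↪ Fin n) : ℝ)⁻¹ * ((6 : ℝ)⁻¹ ^ 2 * ((n : ℝ) - 2)) := by
    have h3 : (0 : ℝ) ≤ (n : ℝ) - 2 := by linarith
    positivity
  refine le_trans (le_of_eq ?_) (mul_le_mul_of_nonneg_left h9 hc)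
  rw [hN]
  have h1 : (n : ℝ) ≠ 0 := by linarith
  have h2 : (n : ℝ) - 1 ≠ 0 := by linarith
  have h3 : (n : ℝ) - 2 ≠ 0 := by linarith
  field_simp

/-! ### The class `t²` -/

theorem sum_gv_t2 (hB : IsMUBs B) {k : Fin n} (hij : i ≠ j) (hik : i ≠ k) (hjk : j ≠ k) :
    6⁻¹ * ∑ b, gv (xT B i j (k, b)) t2G = ∑ b : Fin 6, ∑ a : Fin 6, ∑ c : Fin 6,
      (ip B (k, b) (i, a) * ip B (i, a) (j, c) * ip B (j, c) (k, b)) ^ 2 := by
  have h : ∀ b : Fin 6, gv (xT B i j (k, b)) t2G = 6 * ∑ a : Fin 6, ∑ c : Fin 6,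
      (ip B (k, b) (i, a) * ip B (i, a) (j, c) * ip B (j, c) (k, b)) ^ 2 := by
    intro b
    rw [gv_t2G, Finset.mul_sum, Finset.mul_sum]
    refine Finset.sum_congr rfl fun a _ => ?_
    rw [Finset.mul_sum, Finset.mul_sum]
    refine Finset.sum_congr rfl fun c _ => ?_
    unfold xT
    rw [x1_ac, VT_apply, zpow_ofNat, mul_pow, pow_two H138.s6, H138.s6_sq]
    ring
  simp only [h, ← Finset.mul_sum]
  ring

theorem tr_PPP (B : Fin n → M6) (u v w : Fin n × Fin 6) :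
    (H693.P B v * (H693.P B w * H693.P B u)).trace = ip B v w * ip B w u * ip B u v := by
  rw [H693.tr_PX]
  have h : ∀ r s, (H693.P B w * H693.P B u) r s
      = B w.1 r w.2 * ip B w u * star (B u.1 s u.2) := by
    intro r s
    rw [Matrix.mul_apply]
    simp only [H693.P_apply]
    unfold ip vec
    rw [Finset.mul_sum, Finset.sum_mul]
    exact Finset.sum_congr rfl fun t _ => by ring
  simp only [h]
  have h2 : ∀ r s : Fin 6, star (B v.1 r v.2) * (B w.1 r w.2 * ip B w u * star (B u.1 s u.2)) *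
      B v.1 s v.2 = (star (B v.1 r v.2) * B w.1 r w.2) * ip B w u *
        (star (B u.1 s u.2) * B v.1 s v.2) := fun r s => by ring
  simp only [h2, ← Finset.mul_sum, ← Finset.sum_mul]
  rfl

theorem T2_eq (B : Fin n → M6) : H693.T2 B = ∑ i, ∑ j, ∑ k, if i ≠ j ∧ i ≠ k ∧ j ≠ k then
    ∑ b : Fin 6, ∑ a : Fin 6, ∑ c : Fin 6,
      (ip B (k, b) (i, a) * ip B (i, a) (j, c) * ip B (j, c) (k, b)) ^ 2 else 0 := by
  unfold H693.T2
  simp only [Fintype.sum_prod_type, tr_PPP]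
  have h : ∀ i j k : Fin n, (if i ≠ j ∧ i ≠ k ∧ j ≠ k then
    ∑ b : Fin 6, ∑ a : Fin 6, ∑ c : Fin 6,
      (ip B (k, b) (i, a) * ip B (i, a) (j, c) * ip B (j, c) (k, b)) ^ 2 else 0)
      = ∑ c : Fin 6, ∑ a : Fin 6, ∑ b : Fin 6, if j ≠ i ∧ j ≠ k ∧ i ≠ k then
        (ip B (k, b) (i, a) * ip B (i, a) (j, c) * ip B (j, c) (k, b)) ^ 2 else 0 := by
    intro i j k
    by_cases hc : i ≠ j ∧ i ≠ k ∧ j ≠ k
    · have hc' : j ≠ i ∧ j ≠ k ∧ i ≠ k := ⟨Ne.symm hc.1, hc.2.2, hc.2.1⟩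
      simp only [if_pos hc, if_pos hc']
      have h4 : ∀ F : Fin 6 → Fin 6 → Fin 6 → ℂ,
          ∑ b, ∑ a, ∑ c, F a b c = ∑ c, ∑ a, ∑ b, F a b c := by
        intro F
        rw [Finset.sum_comm, Finset.sum_congr rfl fun a _ => Finset.sum_comm, Finset.sum_comm]
      exact h4 fun a b c => (ip B (k, b) (i, a) * ip B (i, a) (j, c) * ip B (j, c) (k, b)) ^ 2
    · have hc' : ¬ (j ≠ i ∧ j ≠ k ∧ i ≠ k) := fun h => hc ⟨Ne.symm h.1, h.2.2, h.2.1⟩
      simp only [if_neg hc, if_neg hc', Finset.sum_const_zero]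
  simp only [h]
  -- left: sum over j c i a k b ; right: sum over i j k c a b
  rw [Finset.sum_comm (s := (Finset.univ : Finset (Fin n))) (t := (Finset.univ : Finset (Fin n)))
    (f := fun i j => ∑ k, ∑ c : Fin 6, ∑ a : Fin 6, ∑ b : Fin 6,
      if j ≠ i ∧ j ≠ k ∧ i ≠ k then
        (ip B (k, b) (i, a) * ip B (i, a) (j, c) * ip B (j, c) (k, b)) ^ 2 else 0)]
  refine Finset.sum_congr rfl fun j _ => ?_
  rw [Finset.sum_comm]
  refine Finset.sum_congr rfl fun i _ => ?_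
  have h5 : ∀ F : Fin 6 → Fin 6 → Fin n → Fin 6 → ℂ,
      ∑ c, ∑ a, ∑ k, ∑ b, F c a k b = ∑ k, ∑ c, ∑ a, ∑ b, F c a k b := by
    intro F
    rw [Finset.sum_congr rfl fun c _ => Finset.sum_comm, Finset.sum_comm]
  exact h5 fun c a k b => if j ≠ i ∧ j ≠ k ∧ i ≠ k then
        (ip B (k, b) (i, a) * ip B (i, a) (j, c) * ip B (j, c) (k, b)) ^ 2 else 0

theorem t2V_eq (hB : IsMUBs B) :
    t2V B = (Fintype.card (Fin 3 ↪ Fin n) : ℝ)⁻¹ * (H693.T2 B).re := by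
  have e1 := cT_false hB t2G (fun i j k => ∑ b : Fin 6, ∑ a : Fin 6, ∑ c : Fin 6,
      (ip B (k, b) (i, a) * ip B (i, a) (j, c) * ip B (j, c) (k, b)) ^ 2)
    fun i j k h1 h2 h3 => sum_gv_t2 hB h1 h2 h3
  unfold t2V
  rw [e1, show (Fintype.card (Fin 3 ↪ Fin n) : ℂ)⁻¹
    = (((Fintype.card (Fin 3 ↪ Fin n) : ℝ)⁻¹ : ℝ) : ℂ) by push_cast; rfl, Complex.re_ofReal_mul,
    T2_eq]

/-- **Five bases: `t² ≥ 0`.** -/
theorem t2V_nonneg {B : Fin 5 → M6} (hB : IsMUBs B) : 0 ≤ t2V B := by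
  rw [t2V_eq hB]
  exact mul_nonneg (by positivity) (H693.T2_nonneg hB)

/-- **Five bases: `κ + 3 κ' ≥ 2/3`.** -/
theorem K_five {B : Fin 5 → M6} (hB : IsMUBs B) : 2 / 3 ≤ kapV B + 3 * k3V B := by
  have h := K_ineq hB (by norm_num)
  norm_num at h
  linarith

end Vale.Agent.P355.H349.K
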