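import Vale.Agent.P355.H349.Expect

/-! Executable rules for the expectation over the configurations of a quadruple. -/

namespace Vale.Agent.P355.H349

open Finset Matrix Vale.Agent.P355 H138

set_option linter.unusedSectionVars false

variable {K : ℕ} {B : Fin 4 → M6}

/-- one step: a formal step of `H138` (with marks) or a rule for the expectation. -/
inductive MOp where
  | o : Op → MOp
  | ac : ℕ → ℕ → MOp
  | aa : ℕ → ℕ → MOp
  | a : ℕ → MOp
  | bd : MOp
  | ex : ℕ → MOp

/-- one step. -/
def mstep (K : ℕ) (s : St) : MOp → Option St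
  | .o op => step true K s op
  | .ac p0 q0 =>
      if (p0 != 0) && (p0 ≤ K) && (q0 != 0) && (q0 ≤ K) && (s.f p0 0 == 1 || s.f p0 0 == -1) &&
          (s.f 0 q0 == s.f p0 0) && allLe K (fun i => i == 0 || i == p0 || s.f i 0 == 0) &&
          allLe K (fun j => j == 0 || j == q0 || s.f 0 j == 0) then
        some { b := !s.b, e := if s.b then s.e else s.e + 1,
               f := fun i j => if i = 0 ∨ j = 0 then 0
                 else s.f i j + if i = p0 ∧ j = q0 then s.f p0 0 else 0 }
      else none
  | .aa p0 p1 =>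
      if (p0 != 0) && (p0 ≤ K) && (p1 != 0) && (p1 ≤ K) && (p0 != p1) && (s.f p0 0 == 1) &&
          (s.f p1 0 == -1) && allLe K (fun i => i == 0 || i == p0 || i == p1 || s.f i 0 == 0) &&
          allLe K (fun j => j == 0 || s.f 0 j == 0) then
        some { b := s.b, e := s.e + 1,
               f := fun i j => if i = p1 then 0 else if i = p0 then s.f p0 j + s.f p1 j
                 else s.f i j }
      else none
  | .a p0 =>
      if (p0 != 0) && (p0 ≤ K) && (s.f p0 0 == 1 || s.f p0 0 == -1) &&
          allLe K (fun i => i == 0 || i == p0 || s.f i 0 == 0) &&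
          allLe K (fun j => j == 0 || s.f 0 j == 0) then
        some { b := !s.b, e := if s.b then s.e else s.e + 1,
               f := fun i j => if i = 0 ∨ j = 0 then 0 else s.f i j }
      else none
  | .bd =>
      some { b := s.b, e := s.e,
             f := fun i j => if i = 0 then (if j = 0 then 0
                 else - s.f 0 j - sumR K fun i' => s.f (i' + 1) j)
               else if j = 0 then - s.f i 0 - sumR K fun j' => s.f i (j' + 1)
               else s.f i j }
  | .ex p0 =>
      if (p0 != 0) && (p0 ≤ K) &&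
          allLe K (fun i => i == 0 || i == p0 || allLe K fun j => s.f i j == 0) then
        some { b := s.b, e := s.e,
               f := fun i j => if i = 0 then (if j = 0 then 0 else s.f 0 j)
                 else if i = p0 then (if j = 0 then - s.f p0 0 + sumR K fun j' => s.f 0 (j' + 1)
                   else - s.f p0 j - s.f 0 j)
                 else 0 }
      else none

/-- expectation of the value of a matrix. -/
noncomputable def Z (B : Fin 4 → M6) (K : ℕ) (b : Bool) (f : ℕ → ℕ → ℤ) : ℝ :=
  Ev B fun x => rv x b (Mf K f)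

theorem Z_s6 (hB : IsMUBs B) (b : Bool) (f f' : ℕ → ℕ → ℤ)
    (h : Y B (Mf K f) = (r6 / 6) * Y B (Mf K f')) (e : ℕ) :
    (6 : ℝ) ^ (if b then e else e + 1) * Z B K b f = 6 ^ e * Z B K (!b) f' := by
  have h6 : r6 * r6 = 6 := by unfold r6; exact Real.mul_self_sqrt (by norm_num)
  unfold Z
  rw [Ev_rv hB, Ev_rv hB, h]
  cases b
  · simp only [pw6, Bool.false_eq_true, if_false, Bool.not_false, if_true]
    rw [pow_succ]; ring
  · simp only [pw6, Bool.false_eq_true, if_false, Bool.not_true, if_true]
    linear_combination (6 ^ e * Y B (Mf K f') / 6) * h6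

theorem sumR_fin (K : ℕ) (g : ℕ → ℤ) : sumR K g = ∑ q : Fin K, g q := by
  rw [sumR_eq, Fin.sum_univ_eq_sum_range (fun i => g i) K]

theorem idx_some (p : Fin K) : idx (some p) = (p : ℕ) + 1 := rfl

theorem idx_none : idx (none : Option (Fin K)) = 0 := rfl

theorem Mf_some_ne {p : Fin K} : idx (some p) ≠ 0 := by rw [idx_some]; omega

theorem mstep_sound (hB : IsMUBs B) (s s' : St) (o : MOp) (h : mstep K s o = some s') :
    (6 : ℝ) ^ s'.e * Z B K s.b s.f = 6 ^ s.e * Z B K s'.b s'.f := by
  cases o with
  | o op =>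
    simp only [mstep] at h
    unfold Z
    rw [← Ev_smul, ← Ev_smul]
    refine Ev_congr hB fun x hx => ?_
    exact step_sound (m := true) ⟨hx.toBase, fun _ => hx.toExt⟩ s s' op h
  | ac p0 q0 =>
    simp only [mstep, Option.ite_none_right_eq_some, Option.some.injEq] at h
    obtain ⟨hc, rfl⟩ := h
    simp only [Bool.and_eq_true, bne_iff_ne, ne_eq, decide_eq_true_eq, Bool.or_eq_true,
      beq_iff_eq] at hc
    obtain ⟨⟨⟨⟨⟨⟨⟨hp0, hpK⟩, hq0⟩, hqK⟩, h1⟩, h2⟩, h3⟩, h4⟩ := hc
    obtain ⟨p, rfl⟩ := exists_idx hp0 hpK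
    obtain ⟨q, rfl⟩ := exists_idx hq0 hqK
    refine Z_s6 hB s.b _ _ ?_ s.e
    have h3' : ∀ p', p' ≠ p → Mf K s.f (some p') none = 0 := by
      intro p' hp'
      have := allLe_spec h3 (some p')
      simp only [Bool.or_eq_true, beq_iff_eq] at this
      rcases this with (h | h) | h
      · exact absurd h Mf_some_ne
      · exact absurd (Option.some.inj (idx_inj h)) hp'
      · exact h
    have h4' : ∀ q', q' ≠ q → Mf K s.f none (some q') = 0 := by
      intro q' hq'
      have := allLe_spec h4 (some q')
      simp only [Bool.or_eq_true, beq_iff_eq] at this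
      rcases this with (h | h) | h
      · exact absurd h Mf_some_ne
      · exact absurd (Option.some.inj (idx_inj h)) hq'
      · exact h
    rw [Y_ac hB (Mf K s.f) p q (s.f (idx (some p)) 0) h1 rfl h2 h3' h4']
    congr 2
    funext p' q'
    rcases p' with _ | p' <;> rcases q' with _ | q' <;> simp only [acn, Mf, idx_none, true_or,
      or_true, if_true, idx_some, Nat.add_eq_zero_iff, one_ne_zero, and_false, or_self, if_false,
      add_left_inj, Fin.val_inj]
  | aa p0 p1 =>
    simp only [mstep, Option.ite_none_right_eq_some, Option.some.injEq] at h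
    obtain ⟨hc, rfl⟩ := h
    simp only [Bool.and_eq_true, bne_iff_ne, ne_eq, decide_eq_true_eq, beq_iff_eq] at hc
    obtain ⟨⟨⟨⟨⟨⟨⟨⟨hp0, hp0K⟩, hp1⟩, hp1K⟩, hne⟩, h1⟩, h2⟩, h3⟩, h4⟩ := hc
    obtain ⟨p, rfl⟩ := exists_idx hp0 hp0K
    obtain ⟨p', rfl⟩ := exists_idx hp1 hp1K
    have hpp : p ≠ p' := by rintro rfl; exact hne rfl
    have h3' : ∀ i, i ≠ p → i ≠ p' → Mf K s.f (some i) none = 0 := by
      intro i hi hi'
      have := allLe_spec h3 (some i)
      simp only [Bool.or_eq_true, beq_iff_eq] at this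
      rcases this with ((h | h) | h) | h
      · exact absurd h Mf_some_ne
      · exact absurd (Option.some.inj (idx_inj h)) hi
      · exact absurd (Option.some.inj (idx_inj h)) hi'
      · exact h
    have h4' : ∀ q', Mf K s.f none (some q') = 0 := by
      intro q'
      have := allLe_spec h4 (some q')
      simp only [Bool.or_eq_true, beq_iff_eq] at this
      exact this.resolve_left Mf_some_ne
    unfold Z
    rw [Ev_rv hB, Ev_rv hB, Y_aa hB (Mf K s.f) p p' hpp h1 h2 h3' h4']
    have e : mrg (Mf K s.f) p p' = Mf K (fun i j => if i = idx (some p') then 0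
        else if i = idx (some p) then s.f (idx (some p)) j + s.f (idx (some p')) j
        else s.f i j) := by
      funext i q'
      unfold mrg Mf
      beta_reduce
      by_cases e1 : i = some p'
      · simp [e1]
      · rw [if_neg e1, if_neg fun h' => e1 (idx_inj h')]
        by_cases e0 : i = some p
        · simp [e0]
        · rw [if_neg e0, if_neg fun h' => e0 (idx_inj h')]
    rw [e, pow_succ]
    ring
  | a p0 =>
    simp only [mstep, Option.ite_none_right_eq_some, Option.some.injEq] at h
    obtain ⟨hc, rfl⟩ := h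
    simp only [Bool.and_eq_true, bne_iff_ne, ne_eq, decide_eq_true_eq, Bool.or_eq_true,
      beq_iff_eq] at hc
    obtain ⟨⟨⟨⟨hp0, hpK⟩, h1⟩, h3⟩, h4⟩ := hc
    obtain ⟨p, rfl⟩ := exists_idx hp0 hpK
    refine Z_s6 hB s.b _ _ ?_ s.e
    have h3' : ∀ p', p' ≠ p → Mf K s.f (some p') none = 0 := by
      intro p' hp'
      have := allLe_spec h3 (some p')
      simp only [Bool.or_eq_true, beq_iff_eq] at this
      rcases this with (h | h) | h
      · exact absurd h Mf_some_ne
      · exact absurd (Option.some.inj (idx_inj h)) hp'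
      · exact h
    have h4' : ∀ q', Mf K s.f none (some q') = 0 := by
      intro q'
      have := allLe_spec h4 (some q')
      simp only [Bool.or_eq_true, beq_iff_eq] at this
      exact this.resolve_left Mf_some_ne
    rw [Y_a hB (Mf K s.f) p (s.f (idx (some p)) 0) h1 rfl h3' h4']
    congr 2
    funext p' q'
    rcases p' with _ | p' <;> rcases q' with _ | q' <;> simp only [zmk, Mf, idx_none, true_or,
      or_true, if_true, idx_some, Nat.add_eq_zero_iff, one_ne_zero, and_false, or_self, if_false]
  | bd =>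
    simp only [mstep, Option.some.injEq] at h
    subst h
    unfold Z
    simp only
    rw [Ev_rv hB, Ev_rv hB, ← Y_bd hB]
    congr 3
    funext p' q'
    rcases p' with _ | p' <;> rcases q' with _ | q' <;>
      simp only [bdn, Mf, idx_none, if_true, sumR_fin, idx_some, Nat.add_eq_zero_iff, one_ne_zero,
        and_false, if_false]
  | ex p0 =>
    simp only [mstep, Option.ite_none_right_eq_some, Option.some.injEq] at h
    obtain ⟨hc, rfl⟩ := h
    simp only [Bool.and_eq_true, bne_iff_ne, ne_eq, decide_eq_true_eq] at hc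
    obtain ⟨⟨hp0, hpK⟩, h3⟩ := hc
    obtain ⟨p, rfl⟩ := exists_idx hp0 hpK
    unfold Z
    simp only
    rw [Ev_rv hB, Ev_rv hB]
    have hrow : ∀ p' : Fin K, p' ≠ p → ∀ q, Mf K s.f (some p') q = 0 := by
      intro p' hp' q
      have := allLe_spec h3 (some p')
      simp only [Bool.or_eq_true, beq_iff_eq] at this
      rcases this with (h | h) | h
      · exact absurd h Mf_some_ne
      · exact absurd (Option.some.inj (idx_inj h)) hp'
      · have := allLe_spec h q
        unfold Mf
        simpa using this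
    let n : Option Unit → Option (Fin K) → ℤ := fun i q => Mf K s.f (i.map fun _ => p) q
    have hinj : Function.Injective fun _ : Unit => p := fun _ _ _ => rfl
    have key : ∀ (f : ℕ → ℕ → ℤ), (∀ p' : Fin K, p' ≠ p → ∀ q, Mf K f (some p') q = 0) →
        ∀ x, gv x (Mf K f) = gv x (fun (i : Option Unit) q => Mf K f (i.map fun _ => p) q) := by
      intro f hf x
      refine gv_embed (fun _ => p) id hinj Function.injective_id _ _ ?_ ?_ ?_
      · intro i q; simp
      · intro p' hp' q
        rcases p' with _ | p'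
        · exact absurd ⟨none, rfl⟩ hp'
        · refine hf p' ?_ q
          rintro rfl
          exact hp' ⟨some (), rfl⟩
      · intro q' hq'
        simp at hq'
    have e1 : Y B (Mf K s.f) = Y B n := by
      unfold Y; congr 1; funext x; rw [key _ hrow]
    set f' : ℕ → ℕ → ℤ := fun i j => if i = 0 then (if j = 0 then 0 else s.f 0 j)
      else if i = idx (some p) then (if j = 0 then - s.f (idx (some p)) 0 +
        sumR K fun j' => s.f 0 (j' + 1) else - s.f (idx (some p)) j - s.f 0 j) else 0 with hf'
    have hrow' : ∀ p' : Fin K, p' ≠ p → ∀ q, Mf K f' (some p') q = 0 := by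
      intro p' hp' q
      unfold Mf
      simp only [hf']
      rw [if_neg Mf_some_ne, if_neg fun h => hp' (Option.some.inj (idx_inj h))]
    have e2 : Y B (Mf K f') = Y B (exn n) := by
      unfold Y; congr 1; funext x
      rw [key _ hrow']
      congr 2
      funext i q
      rcases i with _ | i <;> rcases q with _ | q <;>
        simp only [exn, n, Mf, hf', Option.map_none, Option.map_some, idx_none, if_true,
          sumR_fin, idx_some, Nat.add_eq_zero_iff, one_ne_zero, and_false, if_false]
    rw [e1, e2, Y_ex hB]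

/-- run a list of steps. -/
def mrun (K : ℕ) : List MOp → St → Option St
  | [], s => some s
  | o :: os, s => match mstep K s o with
    | some s' => mrun K os s'
    | none => none

theorem mrun_sound (hB : IsMUBs B) (os : List MOp) (s s' : St) (h : mrun K os s = some s') :
    (6 : ℝ) ^ s'.e * Z B K s.b s.f = 6 ^ s.e * Z B K s'.b s'.f := by
  induction os generalizing s with
  | nil =>
    simp only [mrun, Option.some.injEq] at h
    subst h; rfl
  | cons o os ih =>
    simp only [mrun] at h
    rcases hs : mstep K s o with _ | s1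
    · rw [hs] at h; simp at h
    · rw [hs] at h
      have h1 := mstep_sound hB s s1 o hs
      have h2 := ih s1 h
      have h3 : (6 : ℝ) ^ s1.e ≠ 0 := by positivity
      have h4 : (6 : ℝ) ^ s1.e * ((6 : ℝ) ^ s'.e * Z B K s.b s.f)
          = 6 ^ s1.e * (6 ^ s.e * Z B K s'.b s'.f) := by
        linear_combination (6 : ℝ) ^ s'.e * h1 + (6 : ℝ) ^ s.e * h2
      exact mul_left_cancel₀ h3 h4

/-- expectation of the value of a class. -/
noncomputable def ec (B : Fin 4 → M6) (K : ℕ) (b : Bool) (c : ℤ) : ℝ := Ev B fun x => cv K x b c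

theorem abs_ec_le (hB : IsMUBs B) (b : Bool) (c : ℤ) : |ec B K b c| ≤ 5 / 2 :=
  Ev_abs_le hB fun _ hx => hx.toBase.abs_cv_le b c

/-- A linear relation between expectations of class values. -/
def MHolds (B : Fin 4 → M6) (K : ℕ) (l : List (ℤ × Bool × ℤ)) : Prop :=
  (l.map fun t => (t.1 : ℝ) * ec B K t.2.1 t.2.2).sum = 0

/-- a relation valid for all configurations is valid in the mean. -/
theorem MHolds.of_holds (hB : IsMUBs B) {l : List (ℤ × Bool × ℤ)}
    (h : ∀ x, Conf x → Holds K x l) : MHolds B K l := by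
  unfold MHolds
  have e : (l.map fun t => (t.1 : ℝ) * ec B K t.2.1 t.2.2)
      = l.map fun t => Ev B fun x => (t.1 : ℝ) * cv K x t.2.1 t.2.2 := by
    refine List.map_congr_left fun t _ => ?_
    unfold ec; rw [Ev_smul]
  rw [e, ← Ev_list, ← Ev_const (B := B) 0]
  exact Ev_congr hB fun x hx => h x hx

/-- one checked mean relation: data as in `H138.RedE`, with the steps of this file. -/
structure MRedE where
  l : List ℤ
  b : Bool
  π : Pl
  c : ℤ
  os : List MOp
  b' : Bool
  e : ℕ
  π' : Pl
  c' : ℤ

/-- check. -/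
def MRedE.ok (K : ℕ) (r : MRedE) : Bool :=
  recog K (fOf K r.l) (pOf r.π.σ) (pOf r.π.τ) r.π.t r.c &&
    match mrun K r.os ⟨r.b, 0, fOf K r.l⟩ with
    | some s => (s.b == r.b') && (s.e == r.e) &&
        recog K s.f (pOf r.π'.σ) (pOf r.π'.τ) r.π'.t r.c'
    | none => false

theorem MRedE.sound (hB : IsMUBs B) (r : MRedE) (h : r.ok K = true) :
    (6 : ℝ) ^ r.e * ec B K r.b r.c = ec B K r.b' r.c' := by
  simp only [MRedE.ok, Bool.and_eq_true] at h
  obtain ⟨h1, h2⟩ := h
  rcases hr : mrun K r.os ⟨r.b, 0, fOf K r.l⟩ with _ | s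
  · rw [hr] at h2; simp at h2
  · rw [hr] at h2
    simp only [Bool.and_eq_true, beq_iff_eq] at h2
    obtain ⟨⟨hb, he⟩, h3⟩ := h2
    have e3 := mrun_sound hB r.os _ s hr
    simp only [pow_zero, one_mul] at e3
    have e1 : ec B K r.b r.c = Z B K r.b (fOf K r.l) :=
      Ev_congr hB fun x hx => (recog_sound hx.toBase h1 r.b).symm
    have e2 : ec B K r.b' r.c' = Z B K r.b' s.f :=
      Ev_congr hB fun x hx => (recog_sound hx.toBase h3 r.b').symm
    rw [e1, e2, ← he, e3, hb]

theorem MRedE.holds (hB : IsMUBs B) (r : MRedE) (h : r.ok K = true) :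
    MHolds B K [(6 ^ r.e, r.b, r.c), (-1, r.b', r.c')] := by
  have := r.sound hB h
  unfold MHolds
  simp only [List.map_cons, List.map_nil, List.sum_cons, List.sum_nil]
  push_cast
  linarith

/-- the pointwise sum of squares of `H138`, in the mean. -/
theorem Ev_sos (hB : IsMUBs B) {ι : Type*} (s : Finset ι) (c : ι → ℝ)
    (v : ι → (Fin 7 → Fin 7 → ℂ) → ℝ) (h : ∀ x, Conf x → 0 ≤ ∑ i ∈ s, c i * v i x) :
    0 ≤ ∑ i ∈ s, c i * Ev B (v i) := by
  have := Ev_nonneg (f := fun x => ∑ i ∈ s, c i * v i x) hB h
  rw [Ev_sum] at this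
  simpa only [Ev_smul] using this

/-- example: the mean of `β_a` is `1/√6`. -/
example : (MRedE.mk [0, 0, 0, 1, 0, 0, 0, 0, 0] true ⟨[0, 1, 2], [0, 1, 2], false⟩ (64 ^ 3)
    [.a 1] false 0 ⟨[0, 1, 2], [0, 1, 2], false⟩ 0).ok 2 = true := by decide +kernel

/-- example: the mean of `β_a conj γ_c conj u_ac` is `1/√6`. -/
example : (MRedE.mk [0, 1, 0, 1, -1, 0, 0, 0, 0] false ⟨[0, 1, 2], [0, 1, 2], false⟩
    (64 + 64 ^ 3 - 64 ^ 4) [.ac 1 1] true 1 ⟨[0, 1, 2], [0, 1, 2], false⟩ 0).ok 2 = true := by
  decide +kernel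

/-- example: exchange of roles. -/
example : (MRedE.mk [0, 0, 0, 0, 3, 0, 0, 0, 0] false ⟨[0, 1, 2], [0, 1, 2], false⟩
    (3 * 64 ^ 4) [.bd] false 0 ⟨[0, 1, 2], [0, 1, 2], false⟩ (3 * 64 ^ 4 - 3 * 64 ^ 3 - 3 * 64)).ok 2
    = true := by
  decide +kernel

end Vale.Agent.P355.H349
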